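import Vale.Agent.P213.KQ.Ex.Pair
import Mathlib.Data.Finset.Sum

/-!
P213: gluing along supports, and the two anodyne inclusions: the subdivided horn and the collage
of the last vertex map.
-/

universe u

open CategoryTheory Simplicial Opposite

namespace P213.KQ

/-- A support of a cosimplicial poset. -/
structure Supp (Q : CP) where
  /-- the support -/
  supp : ∀ {n : ℕ}, Q.obj n → Finset (Fin (n + 1))
  nonempty : ∀ {n : ℕ} (a : Q.obj n), (supp a).Nonempty
  map_supp : ∀ {m n : ℕ} (α : Fin (m + 1) →o Fin (n + 1)) (a : Q.obj m),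
    supp (Q.map α a) = (supp a).image α
  congr : ∀ {m n : ℕ} (α β : Fin (m + 1) →o Fin (n + 1)) (a : Q.obj m),
    (∀ x ∈ supp a, α x = β x) → Q.map α a = Q.map β a

/-- A monotone idempotent with given image. -/
def retr {n : ℕ} (U : Finset (Fin (n + 1))) (hU : U.Nonempty) :
    Fin (n + 1) →o Fin (n + 1) where
  toFun i := if h : (U.filter (· ≤ i)).Nonempty then (U.filter (· ≤ i)).max' h else U.min' hU
  monotone' a b hab := by
    by_cases ha : (U.filter (· ≤ a)).Nonempty
    · have hb : (U.filter (· ≤ b)).Nonempty := by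
        obtain ⟨x, hx⟩ := ha
        simp only [Finset.mem_filter] at hx
        exact ⟨x, Finset.mem_filter.2 ⟨hx.1, hx.2.trans hab⟩⟩
      simp only [dif_pos ha, dif_pos hb]
      apply Finset.max'_subset
      intro x hx
      simp only [Finset.mem_filter] at hx ⊢
      exact ⟨hx.1, hx.2.trans hab⟩
    · simp only [dif_neg ha]
      by_cases hb : (U.filter (· ≤ b)).Nonempty
      · simp only [dif_pos hb]
        exact Finset.min'_le _ _ (Finset.mem_filter.1 (Finset.max'_mem _ hb)).1
      · simp only [dif_neg hb, le_refl]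

lemma retr_mem {n : ℕ} (U : Finset (Fin (n + 1))) (hU : U.Nonempty) (i : Fin (n + 1)) :
    retr U hU i ∈ U := by
  show (dite _ _ _) ∈ U
  split
  · rename_i h
    exact (Finset.mem_filter.1 (Finset.max'_mem _ h)).1
  · exact Finset.min'_mem _ _

lemma retr_fix {n : ℕ} (U : Finset (Fin (n + 1))) (hU : U.Nonempty) {i : Fin (n + 1)}
    (hi : i ∈ U) : retr U hU i = i := by
  have h : (U.filter (· ≤ i)).Nonempty := ⟨i, Finset.mem_filter.2 ⟨hi, le_rfl⟩⟩
  show (dite _ _ _) = i
  rw [dif_pos h]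
  apply le_antisymm
  · exact Finset.max'_le _ _ _ fun y hy => (Finset.mem_filter.1 hy).2
  · exact Finset.le_max' _ _ (show i ∈ U.filter (fun x => x ≤ i) by simp [hi])

namespace Supp

variable {Q : CP} (Sp : Supp Q)

/-- The support of a chain. -/
noncomputable def suppC {n : ℕ} (s : Finset (Q.obj n)) : Finset (Fin (n + 1)) :=
  s.biUnion Sp.supp

lemma suppC_mono {n : ℕ} {s t : Finset (Q.obj n)} (h : t ⊆ s) : Sp.suppC t ⊆ Sp.suppC s :=
  Finset.biUnion_subset_biUnion_of_subset_left _ h

variable {n : ℕ} (Pr : Finset (Fin (n + 1)) → Prop) (hPr : ∀ {U V}, Pr U → V ⊆ U → Pr V)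
  {X : SSet.{u}}

/-- A compatible family on the faces satisfying `Pr`. -/
structure Fam (Q : CP) (Pr : Finset (Fin (n + 1)) → Prop) (X : SSet.{u}) where
  /-- the maps -/
  u : ∀ {a : ℕ} (α : Fin (a + 1) →o Fin (n + 1)), Pr (Finset.univ.image α) →
    (N.{u} (Q.obj a) ⟶ X)
  comp : ∀ {a b : ℕ} (β : Fin (b + 1) →o Fin (a + 1)) (α : Fin (a + 1) →o Fin (n + 1))
    (h : Pr (Finset.univ.image α)) (h' : Pr (Finset.univ.image (α.comp β))),
    N.map (Q.map β) ≫ u α h = u (α.comp β) h'

variable {Pr}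

lemma Fam.u_congr (F : Fam Q Pr X) {a : ℕ} {α β : Fin (a + 1) →o Fin (n + 1)} (e : α = β)
    (h : Pr (Finset.univ.image α)) (h' : Pr (Finset.univ.image β)) : F.u α h = F.u β h' := by
  subst e; rfl

lemma suppC_nonempty {Δ : SimplexCategoryᵒᵖ} (σ : (N.{u} (Q.obj n)).obj Δ) :
    (Sp.suppC (img σ)).Nonempty := by
  obtain ⟨x, hx⟩ := Sp.nonempty (N.toHom σ 0)
  exact ⟨x, Finset.mem_biUnion.2 ⟨_, mem_img.2 ⟨0, rfl⟩, hx⟩⟩

include hPr in
lemma pr_retr {U : Finset (Fin (n + 1))} (h : Pr U) (hU : U.Nonempty) :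
    Pr (Finset.univ.image (retr U hU)) :=
  hPr h fun x hx => by
    obtain ⟨i, -, rfl⟩ := Finset.mem_image.1 hx
    exact retr_mem _ _ _

include hPr in
/-- The value of the glued map. -/
noncomputable def val (F : Fam Q Pr X) {Δ : SimplexCategoryᵒᵖ}
    (σ : (N.{u} (Q.obj n)).obj Δ) (h : Pr (Sp.suppC (img σ))) : X.obj Δ :=
  (F.u (retr _ (Sp.suppC_nonempty σ)) (pr_retr hPr h _)).app Δ σ

include hPr in
lemma val_eq (F : Fam Q Pr X) {Δ : SimplexCategoryᵒᵖ} (σ : (N.{u} (Q.obj n)).obj Δ)
    (h : Pr (Sp.suppC (img σ))) {a : ℕ} (α : Fin (a + 1) →o Fin (n + 1))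
    (hα : Pr (Finset.univ.image α)) (τ : (N.{u} (Q.obj a)).obj Δ)
    (hτ : (N.map (Q.map α)).app Δ τ = σ) :
    (F.u α hα).app Δ τ = Sp.val hPr F σ h := by
  have hmem : ∀ x ∈ Sp.suppC (img τ), α x ∈ Sp.suppC (img σ) := by
    intro x hx
    obtain ⟨p, hp, hxp⟩ := Finset.mem_biUnion.1 hx
    obtain ⟨i, rfl⟩ := mem_img.1 hp
    refine Finset.mem_biUnion.2 ⟨N.toHom σ i, mem_img.2 ⟨i, rfl⟩, ?_⟩
    rw [← hτ]
    show α x ∈ Sp.supp (Q.map α (N.toHom τ i))
    rw [Sp.map_supp]
    exact Finset.mem_image_of_mem _ hxp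
  let q := retr _ (Sp.suppC_nonempty σ)
  let w := retr _ (Sp.suppC_nonempty τ)
  have hw : (N.map (Q.map w)).app Δ τ = τ := by
    apply N.ext
    intro i
    show Q.map w (N.toHom τ i) = N.toHom τ i
    conv_rhs => rw [← Q.map_id a (N.toHom τ i)]
    apply Sp.congr
    intro x hx
    exact retr_fix _ _ (Finset.mem_biUnion.2 ⟨_, mem_img.2 ⟨i, rfl⟩, hx⟩)
  have hqα : Pr (Finset.univ.image (q.comp α)) := hPr (pr_retr hPr h (Sp.suppC_nonempty σ))
    (fun x hx => by
      obtain ⟨i, -, rfl⟩ := Finset.mem_image.1 hx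
      exact Finset.mem_image.2 ⟨α i, Finset.mem_univ _, rfl⟩)
  have hαw : Pr (Finset.univ.image (α.comp w)) := hPr hα (fun x hx => by
      obtain ⟨i, -, rfl⟩ := Finset.mem_image.1 hx
      exact Finset.mem_image.2 ⟨w i, Finset.mem_univ _, rfl⟩)
  have hqαw : Pr (Finset.univ.image ((q.comp α).comp w)) := hPr hqα (fun x hx => by
      obtain ⟨i, -, rfl⟩ := Finset.mem_image.1 hx
      exact Finset.mem_image.2 ⟨w i, Finset.mem_univ _, rfl⟩)
  have e : α.comp w = (q.comp α).comp w := OrderHom.ext _ _ (funext fun i =>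
    (retr_fix _ _ (hmem _ (retr_mem _ _ i))).symm)
  calc (F.u α hα).app Δ τ = (N.map (Q.map w) ≫ F.u α hα).app Δ τ := by
        show _ = (F.u α hα).app Δ ((N.map (Q.map w)).app Δ τ)
        rw [hw]
    _ = (N.map (Q.map w) ≫ F.u (q.comp α) hqα).app Δ τ := by
        rw [F.comp w α hα hαw, F.comp w (q.comp α) hqα hqαw, F.u_congr e hαw hqαw]
    _ = (F.u (q.comp α) hqα).app Δ τ := by
        show (F.u (q.comp α) hqα).app Δ ((N.map (Q.map w)).app Δ τ) = _
        rw [hw]
    _ = (N.map (Q.map α) ≫ F.u q (pr_retr hPr h _)).app Δ τ := by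
        rw [F.comp α q (pr_retr hPr h _) hqα]
    _ = _ := by
        show (F.u q _).app Δ ((N.map (Q.map α)).app Δ τ) = _
        rw [hτ]
        rfl

include hPr in
lemma val_map (F : Fam Q Pr X) {Δ Δ' : SimplexCategoryᵒᵖ} (β : Δ ⟶ Δ')
    (σ : (N.{u} (Q.obj n)).obj Δ) (h : Pr (Sp.suppC (img σ)))
    (h' : Pr (Sp.suppC (img ((N.{u} (Q.obj n)).map β σ)))) :
    Sp.val hPr F ((N.{u} (Q.obj n)).map β σ) h' = X.map β (Sp.val hPr F σ h) := by
  rw [← Sp.val_eq hPr F _ h' (retr _ (Sp.suppC_nonempty σ)) (pr_retr hPr h _)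
    ((N.{u} (Q.obj n)).map β σ) ?_]
  · exact ConcreteCategory.congr_hom ((F.u _ _).naturality β) σ
  · apply N.ext
    intro i
    show Q.map _ (N.toHom σ (β.unop.toOrderHom i)) = N.toHom σ (β.unop.toOrderHom i)
    conv_rhs => rw [← Q.map_id n (N.toHom σ (β.unop.toOrderHom i))]
    apply Sp.congr
    intro x hx
    exact retr_fix _ _ (Finset.mem_biUnion.2 ⟨_, mem_img.2 ⟨_, rfl⟩, hx⟩)

end Supp

/-- The toggled face. -/
def zk {n : ℕ} (k : Fin (n + 1)) (T : Finset (Ch n)) : Ch n :=
  ⟨insert k ((T.filter fun S => k ∉ S.1).biUnion Subtype.val), Finset.insert_nonempty _ _⟩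

lemma mem_zk {n : ℕ} {k : Fin (n + 1)} {T : Finset (Ch n)} {x : Fin (n + 1)} :
    x ∈ (zk k T).1 ↔ x = k ∨ ∃ S ∈ T, k ∉ S.1 ∧ x ∈ S.1 := by
  simp only [zk, Finset.mem_insert, Finset.mem_biUnion, Finset.mem_filter]
  constructor
  · rintro (h | ⟨S, ⟨h₁, h₂⟩, h₃⟩)
    · exact Or.inl h
    · exact Or.inr ⟨S, h₁, h₂, h₃⟩
  · rintro (h | ⟨S, h₁, h₂, h₃⟩)
    · exact Or.inl h
    · exact Or.inr ⟨S, ⟨h₁, h₂⟩, h₃⟩

lemma self_mem_zk {n : ℕ} (k : Fin (n + 1)) (T : Finset (Ch n)) : k ∈ (zk k T).1 :=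
  Finset.mem_insert_self _ _

lemma zk_comparable {n : ℕ} (k : Fin (n + 1)) {T : Finset (Ch n)}
    (hT : IsChain (· ≤ ·) (↑T : Set (Ch n))) {S : Ch n} (hS : S ∈ T) :
    zk k T ≤ S ∨ S ≤ zk k T := by
  by_cases hk : k ∈ S.1
  · refine Or.inl fun x hx => ?_
    rcases mem_zk.1 hx with rfl | ⟨S', hS', hk', hx'⟩
    · exact hk
    · rcases eq_or_ne S' S with rfl | hne
      · exact hx'
      · rcases hT hS' hS hne with h | h
        · exact h hx'
        · exact absurd (h hk) hk'
  · exact Or.inr fun x hx => mem_zk.2 (Or.inr ⟨S, hS, hk, hx⟩)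

lemma zk_mono {n : ℕ} (k : Fin (n + 1)) {T T' : Finset (Ch n)}
    (h : ∀ S ∈ T', k ∉ S.1 → S ∈ T) : zk k T' ≤ zk k T := by
  intro x hx
  rcases mem_zk.1 hx with rfl | ⟨S, hS, hk, hx'⟩
  · exact self_mem_zk _ _
  · exact mem_zk.2 (Or.inr ⟨S, h S hS hk, hk, hx'⟩)

lemma zk_congr {n : ℕ} (k : Fin (n + 1)) {T T' : Finset (Ch n)}
    (h : ∀ S : Ch n, k ∉ S.1 → (S ∈ T' ↔ S ∈ T)) : zk k T' = zk k T :=
  le_antisymm (zk_mono k fun S hS hk => (h S hk).1 hS) (zk_mono k fun S hS hk => (h S hk).2 hS)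

/-- The support of `ChCP`. -/
def chSupp : Supp ChCP where
  supp S := S.1
  nonempty S := S.2
  map_supp _ _ := rfl
  congr _ _ _ h := Subtype.ext (Finset.image_congr h)

/-- The faces of the horn. -/
def HornPr {n : ℕ} (k : Fin (n + 1)) (U : Finset (Fin (n + 1))) : Prop := ∃ j, j ≠ k ∧ j ∉ U

lemma HornPr.mono {n : ℕ} {k : Fin (n + 1)} {U V : Finset (Fin (n + 1))} (h : HornPr k U)
    (hVU : V ⊆ U) : HornPr k V :=
  let ⟨j, hj, hjU⟩ := h
  ⟨j, hj, fun hjV => hjU (hVU hjV)⟩

/-- The chains of the subdivided horn. -/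
def HornA {n : ℕ} (k : Fin (n + 1)) (s : Finset (Ch n)) : Prop :=
  HornPr k (chSupp.suppC (Q := ChCP) s)

lemma HornA.mono {n : ℕ} {k : Fin (n + 1)} {s t : Finset (Ch n)} (h : HornA k s)
    (hts : t ⊆ s) : HornA k t :=
  HornPr.mono h (chSupp.suppC_mono hts)

lemma not_hornA_iff {n : ℕ} {k : Fin (n + 1)} {s : Finset (Ch n)} :
    ¬ HornA k s ↔ ∀ j, j ≠ k → ∃ S ∈ s, j ∈ S.1 := by
  show (¬ ∃ j, j ≠ k ∧ j ∉ chSupp.suppC (Q := ChCP) s) ↔ _
  simp only [not_exists, not_and, not_not]
  exact forall₂_congr fun j _ => Finset.mem_biUnion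

/-- The toggling rule of the subdivided horn. -/
def hornToggle {n : ℕ} (k : Fin (n + 2)) : Toggle (HornA k) where
  z := zk k
  chain s hs _ _ := by
    rw [Finset.coe_insert]
    exact hs.insert fun S hS _ => zk_comparable k hs hS
  add s _ _ _ := zk_congr k fun S hk => by
    simp only [Finset.mem_insert, or_iff_right_iff_imp]
    rintro rfl
    exact absurd (self_mem_zk k s) hk
  del s _ hA hz := by
    have key : ∀ j, j ≠ k → ∃ S ∈ s.erase (zk k s), j ∈ S.1 := fun j hj => by
      obtain ⟨S, hS, hjS⟩ := not_hornA_iff.1 hA j hj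
      rcases eq_or_ne S (zk k s) with rfl | hne
      · rcases mem_zk.1 hjS with h | ⟨S', hS', hk', hj'⟩
        · exact absurd h hj
        · exact ⟨S', Finset.mem_erase.2 ⟨fun e => hk' (e ▸ self_mem_zk k s), hS'⟩, hj'⟩
      · exact ⟨S, Finset.mem_erase.2 ⟨hne, hS⟩, hjS⟩
    refine ⟨?_, not_hornA_iff.2 key, zk_congr k fun S hk => ?_⟩
    · obtain ⟨j, hj⟩ := exists_ne k
      obtain ⟨S, hS, -⟩ := key j hj
      exact ⟨S, hS⟩
    · simp only [Finset.mem_erase, and_iff_right_iff_imp]
      rintro _ rfl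
      exact hk (self_mem_zk k s)
  rank s := (zk k s).1.card
  rank_lt s t _ _ hzs _ _ hzt hsub hcard hne := by
    have hle : zk k t ≤ zk k s := zk_mono k fun S hS hk => by
      rcases Finset.mem_insert.1 (hsub hS) with rfl | h
      · exact absurd (self_mem_zk k s) hk
      · exact h
    have hmem : zk k s ∈ t := by
      by_contra h
      exact hne (Finset.eq_of_subset_of_card_le
        (fun S hS => (Finset.mem_insert.1 (hsub hS)).resolve_left (fun e => h (e ▸ hS)))
        hcard.ge)
    exact Finset.card_lt_card (lt_of_le_of_ne (hle)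
      fun e => hzt (by rw [show zk k t = zk k s from Subtype.ext e]; exact hmem))

/-- The subdivided horn. -/
noncomputable def sdHorn {n : ℕ} (k : Fin (n + 2)) : (N.{u} (Ch (n + 1))).Subcomplex :=
  sub (HornA k) HornA.mono

/-- The subdivided horn inclusion is anodyne. -/
theorem anodyne_sdHorn {n : ℕ} (k : Fin (n + 2)) :
    SSet.anodyneExtensions (sdHorn.{u} k).ι :=
  (hornToggle k).anodyne HornA.mono

/-- The collage of the last vertex map. -/
inductive Col (n : ℕ) : Type
  /-- a face -/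
  | face (S : Ch n)
  /-- a vertex -/
  | vert (i : Fin (n + 1))
  deriving DecidableEq

namespace Col

variable {n : ℕ}

/-- The order of the collage. -/
def Le : Col n → Col n → Prop
  | face S, face T => S ≤ T
  | face S, vert i => S.top' ≤ i
  | vert _, face _ => False
  | vert i, vert i' => i ≤ i'

instance : PartialOrder (Col n) where
  le := Le
  le_refl := by rintro (S | i) <;> exact le_rfl
  le_trans := by
    rintro (S | i) (T | i') (R | i'') h h' <;> simp only [Le] at h h' ⊢
    · exact le_trans h h'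
    · exact (Ch.top'_mono h).trans h'
    · exact le_trans h h'
    · exact le_trans h h'
  le_antisymm := by
    rintro (S | i) (T | i') h h' <;> simp only [Le] at h h'
    · exact congrArg _ (le_antisymm h h')
    · exact congrArg _ (le_antisymm h h')

@[simp] lemma face_le_face {S T : Ch n} : face S ≤ face T ↔ S ≤ T := Iff.rfl
@[simp] lemma face_le_vert {S : Ch n} {i : Fin (n + 1)} : face S ≤ vert i ↔ S.top' ≤ i := Iff.rfl
@[simp] lemma vert_le_vert {i i' : Fin (n + 1)} : vert i ≤ vert i' ↔ i ≤ i' := Iff.rfl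

lemma not_vert_le_face {S : Ch n} {i : Fin (n + 1)} : ¬ vert i ≤ face S := id

/-- The collage functoriality. -/
def map {m : ℕ} (α : Fin (m + 1) →o Fin (n + 1)) : Col m →o Col n where
  toFun
    | face S => face (Ch.map α S)
    | vert i => vert (α i)
  monotone' := by
    rintro (S | i) (T | i') h
    · exact (Ch.map α).monotone (show S ≤ T from h)
    · exact Col.face_le_vert.2 (le_of_eq_of_le (Ch.top'_map α S) (α.monotone h))
    · exact h.elim
    · exact α.monotone h

end Col

/-- The cosimplicial collage. -/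
@[reducible] def ColCP : CP where
  obj := Col
  map := Col.map
  map_id := by
    rintro n (S | i)
    · exact congrArg Col.face (ChCP.map_id n S)
    · rfl
  map_comp := by
    rintro l m n f g (S | i)
    · exact congrArg Col.face (ChCP.map_comp f g S)
    · rfl

instance (n : ℕ) : DecidableEq (ColCP.obj n) := inferInstanceAs (DecidableEq (Col n))

/-- The support of the collage. -/
def colSupp : Supp ColCP where
  supp {n} (a : Col n) := match a with
    | .face S => S.1
    | .vert i => {i}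
  nonempty := by
    rintro n (S | i)
    · exact S.2
    · exact Finset.singleton_nonempty i
  map_supp := by
    rintro m n α (S | i)
    · rfl
    · exact (Finset.image_singleton α i).symm
  congr := by
    rintro m n α β (S | i) h
    · exact congrArg Col.face (Subtype.ext (Finset.image_congr h))
    · exact congrArg Col.vert (h i (Finset.mem_singleton_self i))

variable {n : ℕ}

/-- The chains of the collage in the part to be extended from. -/
def ColA (s : Finset (Col n)) : Prop :=
  (∀ i, Col.vert i ∉ s) ∨ ∃ j, j ∉ colSupp.suppC (Q := ColCP) s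

lemma ColA.mono {s t : Finset (Col n)} (h : ColA s) (hts : t ⊆ s) : ColA t :=
  h.imp (fun h i hi => h i (hts hi))
    (fun ⟨j, hj⟩ => ⟨j, fun h' => hj (colSupp.suppC_mono hts h')⟩)

/-- The least vertex of a chain in the collage. -/
noncomputable def kmin (s : Finset (Col n)) : Fin (n + 1) :=
  if h : (Finset.univ.filter fun i => Col.vert i ∈ s).Nonempty then
    (Finset.univ.filter fun i => Col.vert i ∈ s).min' h
  else 0

lemma kmin_congr {s t : Finset (Col n)} (h : ∀ i, Col.vert i ∈ s ↔ Col.vert i ∈ t) :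
    kmin s = kmin t := by
  unfold kmin
  simp only [h]

lemma kmin_mem {s : Finset (Col n)} {i : Fin (n + 1)} (hi : Col.vert i ∈ s) :
    Col.vert (kmin s) ∈ s ∧ kmin s ≤ i := by
  have h : (Finset.univ.filter fun i => Col.vert i ∈ s).Nonempty := ⟨i, by simp [hi]⟩
  rw [kmin, dif_pos h]
  exact ⟨(Finset.mem_filter.1 (Finset.min'_mem _ h)).2, Finset.min'_le _ _ (by simp [hi])⟩

/-- The faces in a chain of the collage. -/
noncomputable def faces (s : Finset (Col n)) : Finset (Ch n) :=
  Finset.univ.filter fun S => Col.face S ∈ s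

lemma mem_faces {s : Finset (Col n)} {S : Ch n} : S ∈ faces s ↔ Col.face S ∈ s := by
  simp [faces]

/-- The toggled element of the collage. -/
noncomputable def colZ (s : Finset (Col n)) : Col n := .face (zk (kmin s) (faces s))

/-- The toggling rule of the collage. -/
noncomputable def colToggle : Toggle (ColA (n := n)) where
  z := colZ
  chain s hs hA _ := by
    simp only [ColA, not_or, not_forall, not_not] at hA
    obtain ⟨⟨i, hi⟩, -⟩ := hA
    have hf : IsChain (· ≤ ·) (↑(faces s) : Set (Ch n)) := fun S hS T hT hne =>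
      hs (mem_faces.1 hS) (mem_faces.1 hT) (fun e => hne (Col.face.inj e))
    rw [Finset.coe_insert]
    refine hs.insert fun b hb _ => ?_
    rcases b with S | i'
    · exact (zk_comparable (kmin s) hf (mem_faces.2 hb)).imp id id
    · left
      show Ch.top' _ ≤ i'
      refine le_trans ?_ (kmin_mem hb).2
      refine Finset.max'_le _ _ _ fun x hx => ?_
      rcases mem_zk.1 hx with rfl | ⟨S, hS, -, hx'⟩
      · exact le_rfl
      · have hkm := (kmin_mem hb).1
        rcases hs (mem_faces.1 hS) hkm (by simp) with h | h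
        · exact (Finset.le_max' _ _ hx').trans h
        · exact (Col.not_vert_le_face h).elim
  add s _ _ _ := by
    have hk : kmin (insert (colZ s) s) = kmin s := kmin_congr fun i => by simp [colZ]
    unfold colZ at hk ⊢
    rw [hk]
    refine congrArg Col.face (zk_congr _ fun S hS => ?_)
    simp only [mem_faces, Finset.mem_insert, Col.face.injEq, or_iff_right_iff_imp]
    rintro rfl
    exact absurd (self_mem_zk _ _) hS
  del s _ hA hz := by
    simp only [ColA, not_or, not_forall, not_not, not_exists] at hA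
    obtain ⟨⟨i, hi⟩, hcov⟩ := hA
    have hv : ∀ i, Col.vert i ∈ s → Col.vert i ∈ s.erase (colZ s) := fun i hi =>
      Finset.mem_erase.2 ⟨by simp [colZ], hi⟩
    have hk : kmin (s.erase (colZ s)) = kmin s := kmin_congr fun i => by simp [colZ]
    refine ⟨⟨_, hv i hi⟩, ?_, ?_⟩
    · simp only [ColA, not_or, not_forall, not_not, not_exists]
      refine ⟨⟨i, hv i hi⟩, fun j => ?_⟩
      obtain ⟨a, ha, hja⟩ := Finset.mem_biUnion.1 (hcov j)
      rcases eq_or_ne a (colZ s) with rfl | hne
      · rcases mem_zk.1 (show j ∈ (zk (kmin s) (faces s)).1 from hja) with rfl | ⟨S, hS, hkS, hjS⟩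
        · exact Finset.mem_biUnion.2 ⟨_, hv _ (kmin_mem hi).1, Finset.mem_singleton_self _⟩
        · refine Finset.mem_biUnion.2 ⟨Col.face S, Finset.mem_erase.2 ⟨?_, mem_faces.1 hS⟩, hjS⟩
          intro e
          exact hkS (Col.face.inj e ▸ self_mem_zk _ _)
      · exact Finset.mem_biUnion.2 ⟨a, Finset.mem_erase.2 ⟨hne, ha⟩, hja⟩
    · show Col.face _ = Col.face _
      rw [hk]
      refine congrArg Col.face (zk_congr _ fun S hS => ?_)
      simp only [mem_faces, Finset.mem_erase, and_iff_right_iff_imp]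
      intro _ e
      exact hS (Col.face.inj e ▸ self_mem_zk _ _)
  rank s := (n - (kmin s).val) * (n + 2) + (zk (kmin s) (faces s)).1.card
  rank_lt s t _ hs hzs _ ht hzt hsub hcard hne := by
    have hmem : colZ s ∈ t := by
      by_contra h
      exact hne (Finset.eq_of_subset_of_card_le
        (fun a ha => (Finset.mem_insert.1 (hsub ha)).resolve_left (fun e => h (e ▸ ha)))
        hcard.ge)
    simp only [ColA, not_or, not_forall, not_not] at hs ht
    obtain ⟨⟨i, hi⟩, -⟩ := ht
    have hmin : Col.vert (kmin t) ∈ s :=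
      (Finset.mem_insert.1 (hsub (kmin_mem hi).1)).resolve_left (by simp [colZ])
    have hle := (kmin_mem hmin).2
    have hb : (zk (kmin t) (faces t)).1.card ≤ n + 1 := by
      simpa using Finset.card_le_univ (zk (kmin t) (faces t)).1
    rcases hle.lt_or_eq with hlt | heq
    · have h1 : (n - (kmin t).val) + 1 ≤ n - (kmin s).val := by
        have := (kmin t).isLt
        have : (kmin s).val < (kmin t).val := hlt
        omega
      calc _ < ((n - (kmin t).val) + 1) * (n + 2) := by rw [add_mul, one_mul]; omega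
        _ ≤ (n - (kmin s).val) * (n + 2) := Nat.mul_le_mul_right _ h1
        _ ≤ _ := Nat.le_add_right _ _
    · rw [← heq]
      refine Nat.add_lt_add_left (Finset.card_lt_card (lt_of_le_of_ne ?_ ?_)) _
      · refine (zk_mono _ fun S hS hk => ?_)
        rcases Finset.mem_insert.1 (hsub (mem_faces.1 hS)) with e | h
        · exact absurd (Col.face.inj e ▸ self_mem_zk (kmin s) (faces s)) hk
        · exact mem_faces.2 h
      · intro e
        refine hzt ?_
        rw [show colZ t = colZ s from congrArg Col.face (Subtype.ext (by rw [← heq]; exact e))]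
        exact hmem

/-- The extended part of the collage. -/
noncomputable def colSub (n : ℕ) : (N.{u} (Col n)).Subcomplex := sub ColA ColA.mono

/-- The inclusion into the collage is anodyne. -/
theorem anodyne_colSub (n : ℕ) : SSet.anodyneExtensions (colSub.{u} n).ι :=
  colToggle.anodyne ColA.mono

end P213.KQ
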