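import Vale.Agent.P213.KQ.Ex.Glue

/-!
P213: `Ex` preserves Kan fibrations, and every horn in `Ex X` has a filler in `Ex (Ex X)`.
-/

universe u

open CategoryTheory Simplicial Opposite HomotopicalAlgebra SSet.modelCategoryQuillen

namespace P213.KQ

variable {X Y : SSet.{u}} {n : ℕ} {k : Fin (n + 2)}

lemma hornPr_range {a : ℕ} {α : Fin (a + 1) →o Fin (n + 2)}
    (h : HornPr k (Finset.univ.image α)) :
    SSet.stdSimplex.objMk α ∈ (SSet.horn.{u} (n + 1) k).obj (op ⦋a⦌) := by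
  rw [SSet.mem_horn_iff]
  obtain ⟨j, hjk, hj⟩ := h
  intro e
  rcases Set.eq_univ_iff_forall.1 e j with ⟨i, hi⟩ | h'
  · exact hj (Finset.mem_image.2 ⟨i, Finset.mem_univ _, hi⟩)
  · exact hjk h'

lemma hornPr_of_mem {Δ : SimplexCategoryᵒᵖ} {x : (Δ[n + 1] : SSet.{u}).obj Δ}
    (hx : x ∈ (SSet.horn.{u} (n + 1) k).obj Δ) :
    HornPr k (Finset.univ.image (SSet.stdSimplex.asOrderHom x)) := by
  rw [SSet.mem_horn_iff] at hx
  obtain ⟨j, hj⟩ := (Set.ne_univ_iff_exists_notMem _).1 hx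
  refine ⟨j, fun e => hj (Or.inr e), fun h => ?_⟩
  obtain ⟨i, -, hi⟩ := Finset.mem_image.1 h
  exact hj (Or.inl ⟨i, hi⟩)

variable (h : (Λ[n + 1, k] : SSet.{u}) ⟶ Ex.obj X)

/-- The family of a horn in `Ex X`. -/
noncomputable def hornFam : Supp.Fam (n := n + 1) ChCP (HornPr k) X where
  u {a} α hα := h.app (op ⦋a⦌) ⟨SSet.stdSimplex.objMk α, hornPr_range hα⟩
  comp {a b} β α hα _ := (ConcreteCategory.congr_hom (h.naturality
    (opHom (Δ := op ⦋a⦌) (Γ := op ⦋b⦌) β)) ⟨SSet.stdSimplex.objMk α, hornPr_range hα⟩).symm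

/-- The transpose of a horn in `Ex X`. -/
noncomputable def hornMap : (sdHorn.{u} k : SSet.{u}) ⟶ X where
  app Δ := ↾fun σ => chSupp.val (Q := ChCP) HornPr.mono (hornFam h) σ.1 σ.2
  naturality Δ Δ' β := by
    refine ConcreteCategory.hom_ext _ _ fun σ => ?_
    have h' : HornPr k (chSupp.suppC (Q := ChCP) (img ((N.{u} (Ch (n + 1))).map β σ.1))) :=
      HornPr.mono σ.2 (chSupp.suppC_mono (img_map β σ.1))
    show chSupp.val (Q := ChCP) HornPr.mono (hornFam h) ((N.{u} (Ch (n + 1))).map β σ.1) h' =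
      X.map β (chSupp.val (Q := ChCP) HornPr.mono (hornFam h) σ.1 σ.2)
    exact chSupp.val_map (Q := ChCP) HornPr.mono (hornFam h) β σ.1 σ.2 h'

lemma hornMap_app {Δ Γ : SimplexCategoryᵒᵖ} (x : (Λ[n + 1, k] : SSet.{u}).obj Δ)
    (σ : (sdHorn.{u} k : SSet.{u}).obj Γ) (τ : (N.{u} (Ch Δ.unop.len)).obj Γ)
    (hτ : (N.map (Ch.map (SSet.stdSimplex.asOrderHom x.1))).app Γ τ = σ.1) :
    (hornMap h).app Γ σ = (h.app Δ x : N.{u} (Ch Δ.unop.len) ⟶ X).app Γ τ := by
  obtain ⟨⟨m⟩⟩ := Δ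
  exact (chSupp.val_eq (Q := ChCP) HornPr.mono (hornFam h) σ.1 σ.2
    (SSet.stdSimplex.asOrderHom x.1) (hornPr_of_mem x.2) τ hτ).symm

lemma symm_comp_exMap {E B : SSet.{u}} (p : E ⟶ B) {m : ℕ} (L : N.{u} (Ch m) ⟶ E)
    (b : Δ[m] ⟶ Ex.obj B) (x : N.{u} (Ch m) ⟶ B) (hL : L ≫ p = x)
    (hx : x = (SSet.yonedaEquiv b : (Ex.obj B).obj (op ⦋m⦌))) :
    SSet.yonedaEquiv.symm (L : (Ex.obj E).obj (op ⦋m⦌)) ≫ Ex.map p = b := by
  apply SSet.yonedaEquiv.injective
  exact (SSet.yonedaEquiv_comp _ (Ex.map p)).trans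
    ((congrArg ((Ex.map p).app (op ⦋m⦌)) (Equiv.apply_symm_apply _ _)).trans (hL.trans hx))

/-- `Ex` preserves Kan fibrations. -/
theorem Ex.fibration {E B : SSet.{u}} (p : E ⟶ B) [Fibration p] : Fibration (Ex.map p) := by
  rw [fibration_iff]
  intro _ _ _ hf
  simp only [J, MorphismProperty.iSup_iff] at hf
  obtain ⟨n, ⟨k⟩⟩ := hf
  refine ⟨fun {h b} sq => ?_⟩
  let x : N.{u} (Ch (n + 1)) ⟶ B := SSet.yonedaEquiv b
  have sq' : CommSq (hornMap h) (sdHorn.{u} k).ι p x := ⟨by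
    apply NatTrans.ext
    funext Γ
    refine ConcreteCategory.hom_ext _ _ fun σ => ?_
    let q := retr _ (chSupp.suppC_nonempty (Q := ChCP) σ.1)
    have hq : HornPr k (Finset.univ.image q) :=
      Supp.pr_retr HornPr.mono σ.2 (chSupp.suppC_nonempty (Q := ChCP) σ.1)
    let y : (Λ[n + 1, k] : SSet.{u}).obj (op ⦋n + 1⦌) :=
      ⟨SSet.stdSimplex.objMk q, hornPr_range hq⟩
    have h1 : (h.app _ y : N.{u} (Ch (n + 1)) ⟶ E) ≫ p = N.map (Ch.map q) ≫ x :=
      (ConcreteCategory.congr_hom (congr_app sq.w (op ⦋n + 1⦌)) y).trans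
        (ConcreteCategory.congr_hom (b.naturality (opHom (Δ := op ⦋n + 1⦌) (Γ := op ⦋n + 1⦌) q))
          (SSet.stdSimplex.objEquiv.symm (𝟙 ⦋n + 1⦌)))
    refine (ConcreteCategory.congr_hom (congr_app h1 Γ) σ.1).trans ?_
    show x.app Γ _ = x.app Γ σ.1
    refine congrArg _ ?_
    refine N.ext fun i => Subtype.ext ?_
    show (N.toHom σ.1 i).1.image q = (N.toHom σ.1 i).1
    conv_rhs => rw [← Finset.image_id (s := (N.toHom σ.1 i).1)]
    exact Finset.image_congr fun v hv =>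
      retr_fix _ _ (Finset.mem_biUnion.2 ⟨_, mem_img.2 ⟨i, rfl⟩, hv⟩)⟩
  have := anodyne_sdHorn.{u} k p (mem_fibrations p)
  refine ⟨⟨⟨SSet.yonedaEquiv.symm (sq'.lift : (Ex.obj E).obj (op ⦋n + 1⦌)), ?_, ?_⟩⟩⟩
  · apply NatTrans.ext
    funext Δ
    refine ConcreteCategory.hom_ext _ _ fun z => ?_
    show N.map (Ch.map (SSet.stdSimplex.asOrderHom z.1)) ≫ sq'.lift = _
    apply N.hom_ext
    intro r σ
    let σ' : (N.{u} (Ch (n + 1))).obj (op ⦋r⦌) :=
      N.mk ((Ch.map (SSet.stdSimplex.asOrderHom z.1)).comp σ)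
    have hσ' : HornA k (img σ') := (hornPr_of_mem z.2).mono fun v hv => by
      obtain ⟨S, hS, hvS⟩ := Finset.mem_biUnion.1 hv
      obtain ⟨i, rfl⟩ := mem_img.1 hS
      obtain ⟨w, -, rfl⟩ := Finset.mem_image.1 hvS
      exact Finset.mem_image_of_mem _ (Finset.mem_univ _)
    have hh := hornMap_app h z ⟨σ', hσ'⟩ (N.mk (Δ := op ⦋r⦌) σ) rfl
    refine Eq.trans ?_ hh
    exact ConcreteCategory.congr_hom (congr_app sq'.fac_left (op ⦋r⦌)) ⟨σ', hσ'⟩
  · exact symm_comp_exMap p sq'.lift b x sq'.fac_right rfl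

/-- The vertex selection of Kan. -/
noncomputable def last' (k : Fin (n + 2)) (S : Ch (n + 1)) : Fin (n + 2) :=
  open Classical in if HornPr k S.1 then S.top' else k

/-- The chain of selected vertices. -/
noncomputable def gmap (k : Fin (n + 2)) {r : ℕ} (c : Fin (r + 1) →o Ch (n + 1)) :
    Ch r →o Ch (n + 1) where
  toFun T := ⟨T.1.image fun i => last' k (c i), T.2.image _⟩
  monotone' _ _ h := Finset.image_subset_image h

lemma gmap_mem {r : ℕ} (c : Fin (r + 1) →o Ch (n + 1)) :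
    HornPr k (Finset.univ.image fun i => last' k (c i)) := by
  classical
  by_cases hne : (Finset.univ.filter fun i => HornPr k (c i).1).Nonempty
  · let i₀ := (Finset.univ.filter fun i => HornPr k (c i).1).max' hne
    obtain ⟨j, hjk, hj⟩ : HornPr k (c i₀).1 := (Finset.mem_filter.1 (Finset.max'_mem _ hne)).2
    refine ⟨j, hjk, fun hmem => ?_⟩
    obtain ⟨i, -, hi⟩ := Finset.mem_image.1 hmem
    by_cases hp : HornPr k (c i).1
    · rw [last', if_pos hp] at hi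
      exact hj (c.monotone (Finset.le_max' _ i (by simp [hp])) (hi ▸ Finset.max'_mem _ _))
    · rw [last', if_neg hp] at hi
      exact hjk hi.symm
  · obtain ⟨j, hj⟩ := exists_ne k
    refine ⟨j, hj, fun hmem => ?_⟩
    obtain ⟨i, -, hi⟩ := Finset.mem_image.1 hmem
    rw [last', if_neg fun hp => hne ⟨i, by simp [hp]⟩] at hi
    exact hj hi.symm

/-- The map of chains into the subdivided horn. -/
noncomputable def gLift (k : Fin (n + 2)) {r : ℕ} (c : Fin (r + 1) →o Ch (n + 1)) :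
    N.{u} (Ch r) ⟶ (sdHorn.{u} k : SSet.{u}) :=
  Subfunctor.lift (N.map (gmap k c)) (by
    rintro Γ σ ⟨τ, rfl⟩
    refine (gmap_mem c).mono fun v hv => ?_
    obtain ⟨S, hS, hvS⟩ := Finset.mem_biUnion.1 hv
    obtain ⟨i, rfl⟩ := mem_img.1 hS
    exact Finset.image_subset_image (Finset.subset_univ _) hvS)

lemma gLift_nat {r r' : ℕ} (β : Fin (r' + 1) →o Fin (r + 1))
    (c : Fin (r + 1) →o Ch (n + 1)) :
    gLift.{u} k (c.comp β) = N.map (Ch.map β) ≫ gLift k c := by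
  apply N.hom_ext
  intro q τ
  refine Subtype.ext (N.ext fun i => Subtype.ext ?_)
  exact (Finset.image_image (f := β) (g := fun v => last' k (c v))).symm

/-- The filler of a horn one stage later. -/
noncomputable def hornFill : Δ[n + 1] ⟶ Ex.obj (Ex.obj X) :=
  SSet.yonedaEquiv.symm
    (({ app := fun Γ => ↾fun c => (gLift k (N.toHom c) ≫ hornMap h : N.{u} (Ch Γ.unop.len) ⟶ X)
        naturality := fun Γ Γ' β => ConcreteCategory.hom_ext _ _ fun c =>
          (congrArg (fun g => g ≫ hornMap h) (gLift_nat β.unop.toOrderHom (N.toHom c))).trans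
            (Category.assoc _ _ _) } : N.{u} (Ch (n + 1)) ⟶ Ex.obj X) :
      (Ex.obj (Ex.obj X)).obj (op ⦋n + 1⦌))

/-- Kan's lemma: a horn in `Ex X` has a filler in `Ex (Ex X)`. -/
theorem hornFill_spec : (SSet.horn.{u} (n + 1) k).ι ≫ hornFill h = h ≫ j.app (Ex.obj X) := by
  apply NatTrans.ext
  funext Δ
  refine ConcreteCategory.hom_ext _ _ fun z => ?_
  apply N.hom_ext
  intro r c
  let β := (lv.app Δ.unop.len).comp c
  show gLift k ((Ch.map (SSet.stdSimplex.asOrderHom z.1)).comp c) ≫ hornMap h =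
    N.map (Ch.map β) ≫ (h.app Δ z : N.{u} (Ch Δ.unop.len) ⟶ X)
  apply N.hom_ext
  intro q τ
  refine hornMap_app h z _ ((N.map (Ch.map β)).app _ (N.mk (Δ := op ⦋q⦌) τ)) ?_
  refine N.ext fun i => Subtype.ext ?_
  show ((τ i).1.image β).image (SSet.stdSimplex.asOrderHom z.1) =
    (τ i).1.image fun v => last' k (Ch.map (SSet.stdSimplex.asOrderHom z.1) (c v))
  rw [Finset.image_image]
  refine Finset.image_congr fun v _ => ?_
  have hp : HornPr k (Ch.map (SSet.stdSimplex.asOrderHom z.1) (c v)).1 :=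
    (hornPr_of_mem z.2).mono (Finset.image_subset_image (Finset.subset_univ _))
  rw [last', if_pos hp]
  exact (Ch.top'_map _ _).symm

end P213.KQ
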