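import Vale.Agent.P213.KQ.Ex.JWE
import Vale.Agent.P213.KQ.Ex.Kan

/-!
P213: comparison of `P213.KQ.Ex` with Mathlib's `SSet.ex`.
-/

open CategoryTheory Simplicial Opposite PartialOrder Vale.Agent.P213

namespace P213.KQ

/-- Faces of the simplex as chains of its vertices. -/
noncomputable def faceIso (n : ℕ) : Ch n ≃o NonemptyFiniteChains (ULift.{0} (Fin (n + 1))) where
  toFun S :=
    { finset := S.1.map Equiv.ulift.symm.toEmbedding
      nonempty := S.2.map
      comparable := fun a b => le_total a.1 b.1 }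
  invFun c := ⟨c.finset.map Equiv.ulift.toEmbedding, c.nonempty.map⟩
  left_inv S := Subtype.ext (by ext x; simp)
  right_inv c := NonemptyFiniteChains.ext (by ext x; simp)
  map_rel_iff' {S T} := Finset.map_subset_map

/-- The nerve of faces is Mathlib's subdivided simplex. -/
noncomputable def sdIsoN (n : ℕ) : N.{0} (Ch n) ≅ SimplexCategory.sd.{0}.obj ⦋n⦌ where
  hom :=
    { app := fun Δ => ↾fun σ =>
        (((faceIso n).toOrderEmbedding.toOrderHom.comp (N.toHom σ)).monotone.functor :
          ComposableArrows _ Δ.unop.len)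
      naturality := fun _ _ _ => by
        refine ConcreteCategory.hom_ext _ _ fun σ => ?_
        exact nerve.ext_of_isThin (funext fun _ => rfl) }
  inv :=
    { app := fun Δ => ↾fun F => N.mk ((faceIso n).symm.toOrderEmbedding.toOrderHom.comp
        ⟨(F : ComposableArrows _ Δ.unop.len).obj, fun _ _ h => leOfHom (F.map (homOfLE h))⟩)
      naturality := fun _ _ _ => ConcreteCategory.hom_ext _ _ fun _ => rfl }
  hom_inv_id := by
    apply NatTrans.ext
    funext Δ
    refine ConcreteCategory.hom_ext _ _ fun σ => ?_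
    exact N.ext fun i => (faceIso n).symm_apply_apply _
  inv_hom_id := by
    apply NatTrans.ext
    funext Δ
    refine ConcreteCategory.hom_ext _ _ fun F => ?_
    exact nerve.ext_of_isThin (funext fun i => (faceIso n).apply_symm_apply _)

lemma sdIsoN_nat {m n : ℕ} (f : ⦋m⦌ ⟶ ⦋n⦌) :
    (sdIsoN m).hom ≫ SimplexCategory.sd.{0}.map f =
      N.map (Ch.map f.toOrderHom) ≫ (sdIsoN n).hom := by
  apply NatTrans.ext
  funext Δ
  refine ConcreteCategory.hom_ext _ _ fun σ => ?_
  refine nerve.ext_of_isThin (funext fun i => NonemptyFiniteChains.ext (Finset.ext fun x => ?_))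
  show x ∈ (NonemptyFiniteChains.map (faceIso m (N.toHom σ i)) _).finset ↔
    x ∈ ((Ch.map f.toOrderHom (N.toHom σ i)).1.map Equiv.ulift.symm.toEmbedding)
  refine (NonemptyFiniteChains.mem_map_iff _ _ x).trans (Iff.trans ?_ Finset.mem_map.symm)
  constructor
  · rintro ⟨a, ha, rfl⟩
    obtain ⟨b, hb, rfl⟩ := Finset.mem_map.1
      (show a ∈ (N.toHom σ i).1.map Equiv.ulift.symm.toEmbedding from ha)
    exact ⟨_, Finset.mem_image_of_mem _ hb, rfl⟩
  · rintro ⟨b, hb, rfl⟩
    obtain ⟨c, hc, rfl⟩ := Finset.mem_image.1 hb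
    exact ⟨_, Finset.mem_map_of_mem _ hc, rfl⟩

/-- The component of the comparison. -/
noncomputable def exIsoApp (X : SSet.{0}) : SSet.ex.{0}.obj X ≅ Ex.obj X :=
  NatIso.ofComponents (fun Δ => Equiv.toIso
    (Equiv.ulift.trans ((sdIsoN Δ.unop.len).symm.homFromEquiv (Z := X))))
    fun {Δ Δ'} α => ConcreteCategory.hom_ext _ _ fun F =>
      (congrArg (fun g => g ≫ (Equiv.ulift F : SimplexCategory.sd.{0}.obj Δ.unop ⟶ X))
        (sdIsoN_nat (m := Δ'.unop.len) (n := Δ.unop.len) α.unop))

/-- `P213.KQ.Ex` is Mathlib's `Ex`. -/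
noncomputable def exIso : SSet.ex.{0} ≅ Ex.{0} :=
  NatIso.ofComponents exIsoApp fun {X Y} f => by
    apply NatTrans.ext
    funext Δ
    refine ConcreteCategory.hom_ext _ _ fun F => ?_
    exact (Category.assoc _ _ f).symm

instance : (Ex.{0}).IsRightAdjoint := Functor.isRightAdjoint_of_iso exIso

end P213.KQ

namespace Vale.Agent.P213

open _root_.P213.KQ

/-- The natural map `X ⟶ Ex X` by the last vertex map. -/
noncomputable def exUnit : 𝟭 SSet.{0} ⟶ SSet.ex := _root_.P213.KQ.j ≫ exIso.inv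

end Vale.Agent.P213
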