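import Vale.Agent.P213.KQ.Main
import Vale.Agent.P213.KQ.Ex.Iso
import Mathlib.CategoryTheory.Functor.OfSequence
import Mathlib.CategoryTheory.Limits.FilteredColimitCommutesFiniteLimit

/-!
P213: `Ex^∞`, and the theorem that a fibration which is a weak equivalence is a trivial fibration.
-/

open CategoryTheory Limits Simplicial Opposite HomotopicalAlgebra SSet.modelCategoryQuillen
open Vale.Agent.P213

namespace P213.KQ

/-- The iterates of `Ex`. -/
noncomputable def exPow (k : ℕ) : SSet.{0} ⥤ SSet.{0} :=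
  Nat.rec (𝟭 SSet.{0}) (fun _ F => F ⋙ Ex) k

/-- The transition maps. -/
noncomputable def exStep (k : ℕ) : exPow k ⟶ exPow (k + 1) where
  app X := j.app ((exPow k).obj X)
  naturality X Y f := j.naturality ((exPow k).map f)

/-- The sequence of the iterates. -/
noncomputable def exSeq : ℕ ⥤ (SSet.{0} ⥤ SSet.{0}) := Functor.ofSequence exStep

/-- `Ex^∞`. -/
noncomputable def ExInf : SSet.{0} ⥤ SSet.{0} := exSeq.flip ⋙ colim

/-- The sequence at `X`. -/
noncomputable abbrev seqAt (X : SSet.{0}) : ℕ ⥤ SSet.{0} := exSeq.flip.obj X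

lemma seqAt_succ (X : SSet.{0}) (k : ℕ) :
    (seqAt X).map (homOfLE (Nat.le_add_right k 1)) = j.app ((exPow k).obj X) := by
  exact congrArg (fun t => t.app X) (Functor.ofSequence_map_homOfLE_succ exStep k)

/-- The stage inclusions. -/
noncomputable def stage (X : SSet.{0}) (k : ℕ) : (exPow k).obj X ⟶ ExInf.obj X :=
  colimit.ι (seqAt X) k

lemma stage_step (X : SSet.{0}) (k : ℕ) :
    j.app ((exPow k).obj X) ≫ stage X (k + 1) = stage X k := by
  rw [← seqAt_succ]
  exact colimit.w (seqAt X) (homOfLE (Nat.le_add_right k 1))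

lemma stage_map (X : SSet.{0}) {k l : ℕ} (f : k ⟶ l) :
    (seqAt X).map f ≫ stage X l = stage X k :=
  colimit.w (seqAt X) f

lemma stage_naturality {X Y : SSet.{0}} (f : X ⟶ Y) (k : ℕ) :
    stage X k ≫ ExInf.map f = (exPow k).map f ≫ stage Y k :=
  ι_colimMap _ _

/-- The natural map into `Ex^∞`. -/
noncomputable def η : 𝟭 SSet.{0} ⟶ ExInf where
  app X := stage X 0
  naturality _ _ f := (stage_naturality f 0).symm

/-- `η` as a transfinite composition. -/
noncomputable def ηTransfinite (X : SSet.{0}) :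
    (weakEq ⊓ MorphismProperty.monomorphisms SSet.{0}).TransfiniteCompositionOfShape ℕ
      (η.app X) where
  F := seqAt X
  isoBot := Iso.refl _
  incl := (colimit.cocone (seqAt X)).ι
  isColimit := colimit.isColimit _
  fac := Category.id_comp (stage X 0)
  map_mem k _ := by
    show (weakEq ⊓ MorphismProperty.monomorphisms SSet.{0})
      ((seqAt X).map (homOfLE (Nat.le_add_right k 1)))
    rw [seqAt_succ]
    exact ⟨weakEq_j _, mono_j _⟩

theorem η_spec (X : SSet.{0}) : weakEq (η.app X) ∧ Mono (η.app X) := by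
  have := Vale.Agent.P213.KQ.weakEq_transfinite
  exact MorphismProperty.transfiniteCompositionsOfShape_le
    (weakEq ⊓ MorphismProperty.monomorphisms SSet.{0}) ℕ _ ⟨ηTransfinite X⟩

theorem exPow_fibration (k : ℕ) {E B : SSet.{0}} (p : E ⟶ B) [Fibration p] :
    Fibration ((exPow k).map p) := by
  induction k with
  | zero => exact ‹Fibration p›
  | succ k ih => exact @Ex.fibration _ _ ((exPow k).map p) ih

/-- `Ex^∞` preserves fibrations. -/
theorem ExInf.fibration {E B : SSet.{0}} (p : E ⟶ B) [Fibration p] :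
    Fibration (ExInf.map p) := by
  rw [SSet.modelCategoryQuillen.fibration_iff]
  intro _ _ _ hf
  simp only [J, MorphismProperty.iSup_iff] at hf
  obtain ⟨n, ⟨k⟩⟩ := hf
  refine ⟨fun {h b} sq => ?_⟩
  obtain ⟨i, h₀, rfl⟩ := IsFinitelyPresentable.exists_hom_of_isColimit
    (colimit.isColimit (seqAt E)) h
  obtain ⟨i', b₀, rfl⟩ := IsFinitelyPresentable.exists_hom_of_isColimit
    (colimit.isColimit (seqAt B)) b
  obtain ⟨l, u, v, e⟩ := IsFinitelyPresentable.exists_eq_of_isColimit
    (colimit.isColimit (seqAt B)) (h₀ ≫ (exPow i).map p)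
    ((SSet.horn (n + 1) k).ι ≫ b₀) (by
      have w := sq.w
      simp only [Category.assoc] at w ⊢
      refine Eq.trans ?_ w
      exact congrArg (h₀ ≫ ·) (stage_naturality p i).symm)
  have := exPow_fibration l p
  have sq' : CommSq (h₀ ≫ (seqAt E).map u) (SSet.horn (n + 1) k).ι ((exPow l).map p)
      (b₀ ≫ (seqAt B).map v) :=
    ⟨(Category.assoc _ _ _).trans (((congrArg (h₀ ≫ ·) ((exSeq.map u).naturality p).symm).trans
      (Category.assoc _ _ _).symm).trans (e.trans (Category.assoc _ _ _)))⟩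
  have hl : HasLiftingProperty (SSet.horn.{0} (n + 1) k).ι ((exPow l).map p) := inferInstance
  obtain ⟨⟨L⟩⟩ := hl.sq_hasLift sq'
  refine ⟨⟨⟨L.l ≫ stage E l, ?_, ?_⟩⟩⟩
  · exact (Category.assoc _ _ _).symm.trans ((congrArg (· ≫ stage E l) L.fac_left).trans
      ((Category.assoc _ _ _).trans (congrArg (h₀ ≫ ·) (stage_map E u))))
  · exact (Category.assoc _ _ _).trans ((congrArg (L.l ≫ ·) (stage_naturality p l)).trans
      ((Category.assoc _ _ _).symm.trans ((congrArg (· ≫ stage B l) L.fac_right).trans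
        ((Category.assoc _ _ _).trans (congrArg (b₀ ≫ ·) (stage_map B v))))))

/-- `Ex^∞ X` is a Kan complex. -/
theorem ExInf.kan (Z : SSet.{0}) : SSet.KanComplex (ExInf.obj Z) := by
  rw [SSet.KanComplex, isFibrant_iff, SSet.modelCategoryQuillen.fibration_iff]
  intro _ _ _ hf
  simp only [J, MorphismProperty.iSup_iff] at hf
  obtain ⟨n, ⟨k⟩⟩ := hf
  refine ⟨fun {h b} sq => ?_⟩
  obtain ⟨i, h₀, rfl⟩ := IsFinitelyPresentable.exists_hom_of_isColimit
    (colimit.isColimit (seqAt Z)) h
  let h₁ : (Λ[n + 1, k] : SSet.{0}) ⟶ Ex.obj ((exPow i).obj Z) := h₀ ≫ j.app _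
  refine ⟨⟨⟨hornFill h₁ ≫ stage Z (i + 2), ?_, Subsingleton.elim _ _⟩⟩⟩
  exact (Category.assoc _ _ _).symm.trans ((congrArg (· ≫ stage Z (i + 2)) (hornFill_spec h₁)).trans
    ((Category.assoc _ _ _).trans ((congrArg (h₁ ≫ ·) (stage_step Z (i + 1))).trans
      ((Category.assoc _ _ _).trans (congrArg (h₀ ≫ ·) (stage_step Z i))))))

instance exPow_preserves (k : ℕ) : PreservesLimitsOfShape WalkingCospan (exPow k) := by
  induction k with
  | zero => exact inferInstanceAs (PreservesLimitsOfShape WalkingCospan (𝟭 SSet.{0}))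
  | succ k ih =>
    have := ih
    exact inferInstanceAs (PreservesLimitsOfShape WalkingCospan (exPow k ⋙ Ex))

instance exSeqFlip_preserves : PreservesLimitsOfShape WalkingCospan exSeq.flip :=
  preservesLimitsOfShape_of_evaluation _ _ fun k =>
    inferInstanceAs (PreservesLimitsOfShape WalkingCospan (exPow k))

/-- `Ex^∞` preserves pullbacks. -/
theorem ExInf.pullbacks : PreservesLimitsOfShape WalkingCospan ExInf :=
  inferInstanceAs (PreservesLimitsOfShape WalkingCospan (exSeq.flip ⋙ colim))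

/-- A point is fixed by `Ex^∞`. -/
theorem isIso_η_terminal (T : SSet.{0}) (hT : IsTerminal T) : IsIso (η.app T) := by
  have ht : ∀ k, IsTerminal ((exPow k).obj T) := by
    intro k
    induction k with
    | zero => exact hT
    | succ k ih => exact IsTerminal.isTerminalObj Ex _ ih
  let c : seqAt T ⟶ (Functor.const ℕ).obj T :=
    { app := fun k => hT.from _
      naturality := fun _ _ _ => hT.hom_ext _ _ }
  let r : ExInf.obj T ⟶ T := colimit.desc (seqAt T) ⟨_, c⟩
  refine ⟨r, hT.hom_ext _ _, colimit.hom_ext fun k => ?_⟩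
  have h0 : (seqAt T).map (homOfLE (Nat.zero_le k)) ≫ stage T k = stage T 0 := stage_map T _
  calc stage T k ≫ r ≫ η.app T = (stage T k ≫ r) ≫ η.app T := (Category.assoc _ _ _).symm
    _ = hT.from _ ≫ (seqAt T).map (homOfLE (Nat.zero_le k)) ≫ stage T k := by
        exact (congrArg (· ≫ stage T 0) (hT.hom_ext _ (hT.from _))).trans
          (congrArg (hT.from _ ≫ ·) h0.symm)
    _ = (hT.from _ ≫ (seqAt T).map (homOfLE (Nat.zero_le k))) ≫ stage T k :=
        (Category.assoc _ _ _).symm
    _ = 𝟙 _ ≫ stage T k := congrArg (· ≫ stage T k) ((ht k).hom_ext _ _)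
    _ = stage T k := Category.id_comp _
    _ = stage T k ≫ 𝟙 _ := (Category.comp_id _).symm

/-- The point is fixed by `Ex^∞`. -/
theorem isIso_η_pt : IsIso (η.app (Δ[0] : SSet.{0})) :=
  isIso_η_terminal _ SSet.stdSimplex.isTerminalObj₀

end P213.KQ

namespace Vale.Agent.P213

theorem weakEq_exUnit (X : SSet.{0}) : weakEq (exUnit.app X) :=
  KQ.weakEq_comp (_root_.P213.KQ.weakEq_j X) (KQ.weakEq_of_isIso _)

/-- A Kan fibration that is a weak equivalence is a trivial fibration. -/
theorem trivFib_of_weakEq {X Y : SSet.{0}} (p : X ⟶ Y) (hp : kanFib p) (hw : weakEq p) :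
    SSet.modelCategoryQuillen.I.rlp p := by
  have : Fibration p := (SSet.modelCategoryQuillen.fibration_iff p).2 hp
  have := _root_.P213.KQ.ExInf.pullbacks
  exact (KQ.trivFib_iff p).1 (KQ.trivFib_of_replacement _root_.P213.KQ.ExInf _root_.P213.KQ.η
    (fun X => (_root_.P213.KQ.η_spec X).2) (fun X => (_root_.P213.KQ.η_spec X).1)
    _root_.P213.KQ.ExInf.kan (fun _ _ p hp => @_root_.P213.KQ.ExInf.fibration _ _ p hp)
    _root_.P213.KQ.isIso_η_pt p hw)

/-- `Ex` preserves weak equivalences and reflects them. -/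
theorem weakEq_ex_map_iff {X Y : SSet.{0}} (f : X ⟶ Y) : weakEq (SSet.ex.map f) ↔ weakEq f := by
  constructor
  · intro h
    apply KQ.weakEq_of_comp_right (weakEq_exUnit Y)
    show weakEq ((𝟭 SSet.{0}).map f ≫ exUnit.app Y)
    rw [exUnit.naturality]
    exact KQ.weakEq_comp (weakEq_exUnit X) h
  · intro h
    apply KQ.weakEq_of_comp_left (weakEq_exUnit X)
    rw [← exUnit.naturality]
    exact KQ.weakEq_comp h (weakEq_exUnit Y)

/-- `Ex` preserves Kan fibrations. -/
theorem kanFib_ex_map {X Y : SSet.{0}} (p : X ⟶ Y) (hp : kanFib p) : kanFib (SSet.ex.map p) := by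
  have : Fibration p := (SSet.modelCategoryQuillen.fibration_iff p).2 hp
  exact ((SSet.modelCategoryQuillen.J.{0}.rlp).arrow_mk_iso_iff (Arrow.isoMk (_root_.P213.KQ.exIso.app X)
    (_root_.P213.KQ.exIso.app Y) (_root_.P213.KQ.exIso.hom.naturality p).symm)).2
    ((SSet.modelCategoryQuillen.fibration_iff _).1 (_root_.P213.KQ.Ex.fibration p))

end Vale.Agent.P213
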