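import Vale.Agent.P213.Statement
import Vale.Agent.P213.KQ.Ex.Glue

/-!
P213: `X ⟶ Ex X` is a weak equivalence for every simplicial set `X`.

For a Kan complex `Z` the restriction `R ColCP Z ⟶ Ex Z` is a trivial fibration, so `Z ⟶ Ex Z` has
a homotopy retraction; the two maps `Ex X ⟶ Ex (Ex X)` are homotopic, which gives the general case.
-/

open CategoryTheory Simplicial Opposite MonoidalCategory Limits Vale.Agent.P213

namespace P213.KQ

section homotopy

variable {X Y Z : SSet.{0}}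

lemma quot_comp_left {f g : X ⟶ Y} (H : Htpc f g) (p : Y ⟶ Z) : Htpc (f ≫ p) (g ≫ p) := by
  obtain ⟨H⟩ := H
  exact ⟨SSet.RelativeMorphism.Homotopy.mk (H.h ≫ p)
    (by simp [SSet.RelativeMorphism.botEquiv]) (by simp [SSet.RelativeMorphism.botEquiv])
    (by ext n x; exact x.1.2.elim)⟩

lemma quot_comp_right (p : X ⟶ Y) {f g : Y ⟶ Z} (H : Htpc f g) : Htpc (p ≫ f) (p ≫ g) := by
  obtain ⟨H⟩ := H
  exact ⟨SSet.RelativeMorphism.Homotopy.mk (p ▷ Δ[1] ≫ H.h)
    (by simp [SSet.RelativeMorphism.botEquiv]) (by simp [SSet.RelativeMorphism.botEquiv])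
    (by ext n x; exact x.1.2.elim)⟩

lemma htpc_mk {f g : X ⟶ Y} (h : X ⊗ Δ[1] ⟶ Y) (h₀ : SSet.ι₀ ≫ h = f) (h₁ : SSet.ι₁ ≫ h = g) :
    Htpc f g :=
  ⟨SSet.RelativeMorphism.Homotopy.mk h h₀ h₁ (by ext n x; exact x.1.2.elim)⟩

end homotopy

lemma j_naturality_app (K : SSet.{0}) {Δ Δ' : SimplexCategoryᵒᵖ} (α : Δ ⟶ Δ') (t : K.obj Δ) :
    ((j.app K).app Δ' (K.map α t) : N.{0} (Ch Δ'.unop.len) ⟶ K) =
      N.map (Ch.map α.unop.toOrderHom) ≫ (j.app K).app Δ t :=
  ConcreteCategory.congr_hom ((j.app K).naturality α) t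

/-- The comparison map `Ex X ⊗ Δ[1] ⟶ Ex (X ⊗ Δ[1])`. -/
noncomputable def exTensor (X : SSet.{0}) : Ex.obj X ⊗ Δ[1] ⟶ Ex.obj (X ⊗ Δ[1]) where
  app Δ := ↾fun z => (CartesianMonoidalCategory.lift (z.1 : N.{0} (Ch Δ.unop.len) ⟶ X)
    ((j.app Δ[1]).app Δ z.2) : N.{0} (Ch Δ.unop.len) ⟶ X ⊗ Δ[1])
  naturality Δ Δ' α := ConcreteCategory.hom_ext _ _ fun z => by
    show CartesianMonoidalCategory.lift
        (N.map (Ch.map α.unop.toOrderHom) ≫ (z.1 : N.{0} (Ch Δ.unop.len) ⟶ X))
        ((j.app Δ[1]).app Δ' (Δ[1].map α z.2)) =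
      N.map (Ch.map α.unop.toOrderHom) ≫ CartesianMonoidalCategory.lift
        (z.1 : N.{0} (Ch Δ.unop.len) ⟶ X) ((j.app Δ[1]).app Δ z.2)
    rw [j_naturality_app]
    exact N.hom_ext fun _ _ => rfl

lemma ι₀_exTensor (X : SSet.{0}) : SSet.ι₀ ≫ exTensor X = Ex.map SSet.ι₀ := by
  apply NatTrans.ext
  funext Δ
  refine ConcreteCategory.hom_ext _ _ fun F => ?_
  show CartesianMonoidalCategory.lift (F : N.{0} (Ch Δ.unop.len) ⟶ X) _ =
    (F : N.{0} (Ch Δ.unop.len) ⟶ X) ≫ CartesianMonoidalCategory.lift _ _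
  exact N.hom_ext fun _ _ => rfl

lemma ι₁_exTensor (X : SSet.{0}) : SSet.ι₁ ≫ exTensor X = Ex.map SSet.ι₁ := by
  apply NatTrans.ext
  funext Δ
  refine ConcreteCategory.hom_ext _ _ fun F => ?_
  show CartesianMonoidalCategory.lift (F : N.{0} (Ch Δ.unop.len) ⟶ X) _ =
    (F : N.{0} (Ch Δ.unop.len) ⟶ X) ≫ CartesianMonoidalCategory.lift _ _
  exact N.hom_ext fun _ _ => rfl

/-- `Ex` preserves homotopies. -/
lemma Ex.htpc {X Y : SSet.{0}} {f g : X ⟶ Y} (H : Htpc f g) :
    Htpc (Ex.map f) (Ex.map g) := by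
  obtain ⟨H⟩ := H
  refine htpc_mk (exTensor X ≫ Ex.map H.h) ?_ ?_
  · rw [← Category.assoc, ι₀_exTensor, ← Functor.map_comp, SSet.Homotopy.h₀]
  · rw [← Category.assoc, ι₁_exTensor, ← Functor.map_comp, SSet.Homotopy.h₁]

section kappa

variable {n r : ℕ}

/-- The interpolation between the two composite last vertex maps. -/
def kappa (c : Fin (r + 1) →o Ch n) (t : Fin (n + 1) →o Fin 2) : Ch r →o Ch n where
  toFun T := ⟨T.1.image (fun i => (c i).top') ∪ (c T.top').1.filter (fun s => t s = 1),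
    (T.2.image _).mono Finset.subset_union_left⟩
  monotone' T T' h := Finset.union_subset_union (Finset.image_subset_image h)
    (Finset.filter_subset_filter _ (c.monotone (Ch.top'_mono h)))

end kappa

/-- The two maps `Ex X ⟶ Ex (Ex X)` are homotopic. -/
lemma htpc_j_exMap (X : SSet.{0}) : Htpc (j.app (Ex.obj X)) (Ex.map (j.app X)) := by
  refine htpc_mk
    { app := fun Δ => ↾fun z =>
        ({ app := fun Γ => ↾fun c =>
              (N.map (kappa (N.toHom c) (SSet.stdSimplex.asOrderHom z.2)) ≫ z.1 :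
                N.{0} (Ch Γ.unop.len) ⟶ X)
           naturality := fun Γ Γ' β => ?_ } : N.{0} (Ch Δ.unop.len) ⟶ Ex.obj X)
      naturality := fun Δ Δ' α => ?_ } ?_ ?_
  · refine ConcreteCategory.hom_ext _ _ fun c => ?_
    refine (congrArg (fun g => N.map g ≫ (z.1 : N.{0} (Ch Δ.unop.len) ⟶ X)) ?_).trans (N.pre_pre _ _ _).symm
    refine OrderHom.ext _ _ (funext fun T => Subtype.ext ?_)
    show T.1.image (fun i => (N.toHom c (β.unop.toOrderHom i)).top') ∪
        (N.toHom c (β.unop.toOrderHom T.top')).1.filter _ =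
      (T.1.image β.unop.toOrderHom).image (fun i => (N.toHom c i).top') ∪
        (N.toHom c (Ch.map β.unop.toOrderHom T).top').1.filter _
    rw [Finset.image_image, Ch.top'_map]
    rfl
  · refine ConcreteCategory.hom_ext _ _ fun z => ?_
    apply N.hom_ext
    intro r c
    show N.map (kappa c ((SSet.stdSimplex.asOrderHom z.2).comp α.unop.toOrderHom)) ≫
        N.map (Ch.map α.unop.toOrderHom) ≫ (z.1 : N.{0} (Ch Δ.unop.len) ⟶ X) =
      N.map (kappa ((Ch.map α.unop.toOrderHom).comp c) (SSet.stdSimplex.asOrderHom z.2)) ≫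
        (z.1 : N.{0} (Ch Δ.unop.len) ⟶ X)
    refine (N.pre_pre _ _ _).trans
      (congrArg (fun g => N.map g ≫ (z.1 : N.{0} (Ch Δ.unop.len) ⟶ X)) ?_)
    refine OrderHom.ext _ _ (funext fun T => Subtype.ext ?_)
    show (T.1.image (fun i => (c i).top') ∪ (c T.top').1.filter _).image α.unop.toOrderHom =
      T.1.image (fun i => (Ch.map α.unop.toOrderHom (c i)).top') ∪
        ((c T.top').1.image α.unop.toOrderHom).filter _
    rw [Finset.image_union, Finset.image_image, Finset.filter_image]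
    congr 1
    · refine Finset.image_congr fun i _ => ?_
      exact (Ch.top'_map _ _).symm
  · apply NatTrans.ext
    funext Δ
    refine ConcreteCategory.hom_ext _ _ fun F => ?_
    apply N.hom_ext
    intro r c
    show N.map (kappa c (OrderHom.const _ 0)) ≫ (F : N.{0} _ ⟶ X) =
      N.map (Ch.map ((lv.app Δ.unop.len).comp c)) ≫ (F : N.{0} (Ch Δ.unop.len) ⟶ X)
    congr 2
    refine OrderHom.ext _ _ (funext fun T => Subtype.ext ?_)
    show _ ∪ (c T.top').1.filter (fun _ => (0 : Fin 2) = 1) = _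
    rw [Finset.filter_false_of_mem (fun _ _ => by decide), Finset.union_empty]
    rfl
  · apply NatTrans.ext
    funext Δ
    refine ConcreteCategory.hom_ext _ _ fun F => ?_
    apply N.hom_ext
    intro r c
    apply N.hom_ext
    intro q σ
    show (F : N.{0} _ ⟶ X).app _ (N.mk ((kappa c (OrderHom.const _ 1)).comp σ)) =
      X.map (opHom (Δ := op ⦋r⦌) (Γ := op ⦋q⦌) ((lv.app r).comp σ))
        ((F : N.{0} _ ⟶ X).app _ (N.mk c))
    rw [show X.map (opHom (Δ := op ⦋r⦌) (Γ := op ⦋q⦌) ((lv.app r).comp σ))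
        ((F : N.{0} _ ⟶ X).app _ (N.mk c)) = _ from
      (ConcreteCategory.congr_hom ((F : N.{0} _ ⟶ X).naturality
        (opHom (Δ := op ⦋r⦌) (Γ := op ⦋q⦌) ((lv.app r).comp σ))) (N.mk c)).symm]
    refine congrArg _ (N.ext fun i => Subtype.ext ?_)
    show (σ i).1.image (fun i => (c i).top') ∪ (c (σ i).top').1.filter (fun _ => (1 : Fin 2) = 1) =
      (c (σ i).top').1
    rw [Finset.filter_true_of_mem (fun _ _ => rfl), Finset.union_eq_right]
    intro x hx
    obtain ⟨y, hy, rfl⟩ := Finset.mem_image.1 hx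
    exact c.monotone (Finset.le_max' _ y hy) (Finset.max'_mem _ _)

/-- Faces in the collage. -/
def inFace : CPHom ChCP ColCP where
  app n := ⟨fun S => Col.face S, fun _ _ h => h⟩
  nat _ _ := rfl

/-- Vertices in the collage. -/
def inVert : CPHom IdCP ColCP where
  app n := ⟨fun i => Col.vert i, fun _ _ h => h⟩
  nat _ _ := rfl

/-- The collapse of the collage. -/
def collapse : CPHom ColCP IdCP where
  app n :=
    { toFun := fun a => match a with
        | .face S => S.top'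
        | .vert i => i
      monotone' := by
        rintro (S | i) (T | i') h
        · exact Ch.top'_mono h
        · exact h
        · exact h.elim
        · exact h }
  nat := by
    rintro m n α (S | i)
    · exact (Ch.top'_map α S).symm
    · rfl

/-- The face component of a collage element, constant top on vertices. -/
def faceOf (n : ℕ) : Col n →o Ch n where
  toFun a := match a with
    | .face S => S
    | .vert _ => ⟨Finset.univ, Finset.univ_nonempty⟩
  monotone' := by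
    rintro (S | i) (T | i') h
    · exact h
    · exact Finset.subset_univ _
    · exact h.elim
    · exact le_rfl

/-- The restriction map from the collage. -/
noncomputable def restrFace (Z : SSet.{0}) : R ColCP Z ⟶ Ex.obj Z := (pull inFace).app Z

section trivFib

variable {Z : SSet.{0}} {n : ℕ} (t : (∂Δ[n] : SSet.{0}) ⟶ R ColCP Z) (b : Δ[n] ⟶ Ex.obj Z)

/-- The family on the proper faces. -/
noncomputable def bdryFam :
    Supp.Fam (n := n) ColCP (fun U => ∃ j, j ∉ U) Z where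
  u {a} α h := t.app (op ⦋a⦌) ⟨SSet.stdSimplex.objMk α, fun hs => by
    obtain ⟨j, hj⟩ := h
    obtain ⟨i, hi⟩ := hs j
    exact hj (Finset.mem_image.2 ⟨i, Finset.mem_univ _, hi⟩)⟩
  comp {a b} β α h h' := (ConcreteCategory.congr_hom (t.naturality
    (opHom (Δ := op ⦋a⦌) (Γ := op ⦋b⦌) β)) ⟨SSet.stdSimplex.objMk α, _⟩).symm

lemma pr_mono {U V : Finset (Fin (n + 1))} (h : ∃ j, j ∉ U) (hV : V ⊆ U) : ∃ j, j ∉ V :=
  h.imp fun _ hj hjV => hj (hV hjV)

variable (hsq : t ≫ restrFace Z = ∂Δ[n].ι ≫ b)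

/-- The bottom map as a map of the subdivided simplex. -/
noncomputable def bot : N.{0} (Ch n) ⟶ Z := SSet.yonedaEquiv b

include hsq in
lemma bdry_agree {Δ : SimplexCategoryᵒᵖ} (σ : (N.{0} (Col n)).obj Δ)
    (hf : ∀ i, Col.vert i ∉ img σ) (h : ∃ j, j ∉ colSupp.suppC (Q := ColCP) (img σ)) :
    colSupp.val (Q := ColCP) pr_mono (bdryFam t) σ h =
      (bot b).app Δ ((N.map (faceOf n)).app Δ σ) := by
  let q := retr _ (colSupp.suppC_nonempty (Q := ColCP) σ)
  have hq := Supp.pr_retr (Pr := fun U => ∃ j, j ∉ U) pr_mono h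
    (colSupp.suppC_nonempty (Q := ColCP) σ)
  let x : (∂Δ[n] : SSet.{0}).obj (op ⦋n⦌) := ⟨SSet.stdSimplex.objMk q, fun hs => by
    obtain ⟨j, hj⟩ := hq
    obtain ⟨i, hi⟩ := hs j
    exact hj (Finset.mem_image.2 ⟨i, Finset.mem_univ _, hi⟩)⟩
  have e : (N.map (inFace.app n) ≫ (bdryFam t).u q hq : N.{0} (Ch n) ⟶ Z) =
      N.map (Ch.map q) ≫ bot b := by
    have h1 := ConcreteCategory.congr_hom (congr_app hsq (op ⦋n⦌)) x
    refine Eq.trans h1 ?_
    have h2 := ConcreteCategory.congr_hom (b.naturality (opHom (Δ := op ⦋n⦌) (Γ := op ⦋n⦌) q))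
      (SSet.stdSimplex.objEquiv.symm (𝟙 ⦋n⦌))
    exact h2
  have hσ : ∀ i, Col.face (faceOf n (N.toHom σ i)) = N.toHom σ i := fun i => by
    have := hf
    rcases hc : N.toHom σ i with S | k
    · rfl
    · exact absurd (mem_img.2 ⟨i, hc⟩) (hf k)
  have hfix : ∀ i, Ch.map q (faceOf n (N.toHom σ i)) = faceOf n (N.toHom σ i) := fun i => by
    refine Subtype.ext ?_
    conv_rhs => rw [← Finset.image_id (s := (faceOf n (N.toHom σ i)).1)]
    refine Finset.image_congr fun x hx => ?_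
    refine retr_fix _ _ (Finset.mem_biUnion.2 ⟨_, mem_img.2 ⟨i, rfl⟩, ?_⟩)
    rw [← hσ i]
    exact hx
  show ((bdryFam t).u q hq).app Δ σ = _
  have e1 := ConcreteCategory.congr_hom (congr_app e Δ) ((N.map (faceOf n)).app Δ σ)
  refine Eq.trans ?_ (e1.trans ?_)
  · refine congrArg _ ?_
    exact N.ext fun i => (hσ i).symm
  · show (bot b).app Δ _ = (bot b).app Δ _
    refine congrArg _ ?_
    exact N.ext fun i => hfix i

open Classical in
/-- The value of the map to be extended. -/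
noncomputable def colVal {Δ : SimplexCategoryᵒᵖ} (σ : (N.{0} (Col n)).obj Δ)
    (h : ColA (img σ)) : Z.obj Δ :=
  if hf : ∀ i, Col.vert i ∉ img σ then (bot b).app Δ ((N.map (faceOf n)).app Δ σ)
  else colSupp.val (Q := ColCP) pr_mono (bdryFam t) σ (h.resolve_left hf)

lemma colVal_face {Δ : SimplexCategoryᵒᵖ} (σ : (N.{0} (Col n)).obj Δ) (h : ColA (img σ))
    (hf : ∀ i, Col.vert i ∉ img σ) :
    colVal t b σ h = (bot b).app Δ ((N.map (faceOf n)).app Δ σ) :=
  dif_pos hf

include hsq in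
lemma colVal_bdry {Δ : SimplexCategoryᵒᵖ} (σ : (N.{0} (Col n)).obj Δ) (h : ColA (img σ))
    (h' : ∃ j, j ∉ colSupp.suppC (Q := ColCP) (img σ)) :
    colVal t b σ h = colSupp.val (Q := ColCP) pr_mono (bdryFam t) σ h' := by
  unfold colVal
  split
  · rename_i hf
    exact (bdry_agree t b hsq σ hf h').symm
  · rfl

/-- The map to be extended. -/
noncomputable def colMap : (colSub.{0} n : SSet.{0}) ⟶ Z where
  app Δ := ↾fun σ => colVal t b σ.1 σ.2
  naturality Δ Δ' β := by
    refine ConcreteCategory.hom_ext _ _ fun σ => ?_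
    have hsub := img_map β σ.1
    show colVal t b ((N.{0} (Col n)).map β σ.1) (σ.2.mono hsub) = Z.map β (colVal t b σ.1 σ.2)
    by_cases hf : ∀ i, Col.vert i ∉ img σ.1
    · rw [colVal_face t b σ.1 σ.2 hf, colVal_face t b _ _ (fun i hi => hf i (hsub hi))]
      exact ConcreteCategory.congr_hom ((bot b).naturality β) ((N.map (faceOf n)).app Δ σ.1)
    · have h := σ.2.resolve_left hf
      rw [colVal_bdry t b hsq σ.1 σ.2 h,
        colVal_bdry t b hsq _ _ (pr_mono h (colSupp.suppC_mono hsub))]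
      exact colSupp.val_map pr_mono (bdryFam t) β σ.1 h _

include hsq in
lemma exists_lift (hZ : IsKan Z) : ∃ l : Δ[n] ⟶ R ColCP Z,
    ∂Δ[n].ι ≫ l = t ∧ l ≫ restrFace Z = b := by
  classical
  have := anodyne_colSub.{0} n _ (show kanFib (terminal.from Z) from hZ)
  have sq : CommSq (colMap t b hsq) (colSub.{0} n).ι (terminal.from Z) (terminal.from _) :=
    ⟨by simp⟩
  refine ⟨SSet.yonedaEquiv.symm (sq.lift : (R ColCP Z).obj (op ⦋n⦌)), ?_, ?_⟩
  · apply NatTrans.ext
    funext Δ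
    refine ConcreteCategory.hom_ext _ _ fun x => ?_
    obtain ⟨x, hx⟩ := x
    show N.map (Col.map (SSet.stdSimplex.asOrderHom x)) ≫ sq.lift = _
    apply N.hom_ext
    intro r σ
    have hPr : ∃ j, j ∉ Finset.univ.image (SSet.stdSimplex.asOrderHom x) := by
      by_contra hall
      exact hx fun j => by
        have := not_not.1 (fun h => hall ⟨j, h⟩)
        obtain ⟨i, -, hi⟩ := Finset.mem_image.1 this
        exact ⟨i, hi⟩
    let τ : (N.{0} (Col n)).obj (op ⦋r⦌) := N.mk ((Col.map (SSet.stdSimplex.asOrderHom x)).comp σ)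
    have hτ : ∃ j, j ∉ colSupp.suppC (Q := ColCP) (img τ) := pr_mono hPr fun y hy => by
      obtain ⟨a, ha, hya⟩ := Finset.mem_biUnion.1 hy
      obtain ⟨i, rfl⟩ := mem_img.1 ha
      have hya' : y ∈ colSupp.supp (Q := ColCP)
          (ColCP.map (SSet.stdSimplex.asOrderHom x) (σ i)) := hya
      rw [colSupp.map_supp] at hya'
      obtain ⟨z, -, rfl⟩ := Finset.mem_image.1 hya'
      exact Finset.mem_image_of_mem _ (Finset.mem_univ _)
    have h1 := ConcreteCategory.congr_hom (congr_app sq.fac_left (op ⦋r⦌))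
      (⟨τ, Or.inr hτ⟩ : (colSub.{0} n : SSet.{0}).obj (op ⦋r⦌))
    refine Eq.trans h1 ?_
    refine (colVal_bdry t b hsq τ (Or.inr hτ) hτ).trans ?_
    exact (colSupp.val_eq pr_mono (bdryFam t) τ hτ _ hPr (N.mk σ) rfl).symm
  · apply SSet.yonedaEquiv.injective
    show N.map (inFace.app n) ≫ (Col.map OrderHom.id |> N.map) ≫ sq.lift = bot b
    rw [show Col.map (OrderHom.id : Fin (n + 1) →o Fin (n + 1)) = OrderHom.id from ColCP.map_id' n,
      N.map_id, Category.id_comp]
    apply N.hom_ext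
    intro r σ
    have hf : ∀ i, Col.vert i ∉ img ((N.map (inFace.app n)).app (op ⦋r⦌) (N.mk.{0} σ)) :=
      fun i hi => by
        obtain ⟨k, hk⟩ := mem_img.1 hi
        exact absurd (show Col.face (σ k) = Col.vert i from hk) (by simp)
    have h1 := ConcreteCategory.congr_hom (congr_app sq.fac_left (op ⦋r⦌))
      (⟨_, Or.inl hf⟩ : (colSub.{0} n : SSet.{0}).obj (op ⦋r⦌))
    refine Eq.trans h1 ?_
    refine (colVal_face t b _ (Or.inl hf) hf).trans ?_
    rfl

end trivFib

open SSet.modelCategoryQuillen in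
lemma rlp_restrFace (Z : SSet.{0}) (hZ : IsKan Z) :
    (MorphismProperty.monomorphisms SSet.{0}).rlp (restrFace Z) := by
  rw [SSet.rlp_monomorphisms]
  rintro _ _ _ ⟨n⟩
  refine ⟨fun {t b} sq => ?_⟩
  obtain ⟨l, h₁, h₂⟩ := exists_lift t b sq.w hZ
  exact ⟨⟨⟨l, h₁, h₂⟩⟩⟩

/-- A Kan complex is a homotopy retract of its `Ex`. -/
lemma exists_retraction (Z : SSet.{0}) (hZ : IsKan Z) :
    ∃ r : Ex.obj Z ⟶ Z, Htpc (j.app Z ≫ r) (𝟙 Z) := by
  classical
  have : IsIso (idRNat.app Z) := isIso_idR Z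
  let q : Z ⟶ R ColCP Z := (idRNat ≫ pull collapse).app Z
  have hq : q ≫ restrFace Z = j.app Z := by
    show ((idRNat ≫ pull collapse) ≫ pull inFace).app Z = (idRNat ≫ pull lv).app Z
    rw [Category.assoc, pull_comp]
    rfl
  let e : R ColCP Z ⟶ Z := (pull inVert).app Z ≫ inv (idRNat.app Z)
  have he : q ≫ e = 𝟙 Z := by
    show (idRNat ≫ pull collapse).app Z ≫ (pull inVert).app Z ≫ inv (idRNat.app Z) = _
    have h1 : inVert.comp collapse = CPHom.id IdCP := rfl
    have h2 : (idRNat ≫ pull collapse).app Z ≫ (pull inVert).app Z = idRNat.app Z := by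
      rw [← NatTrans.comp_app, Category.assoc, pull_comp, h1, pull_id, Category.comp_id]
    rw [← Category.assoc, h2]
    exact IsIso.hom_inv_id _
  obtain ⟨s, hs⟩ : ∃ s : Ex.obj Z ⟶ R ColCP Z, s ≫ restrFace Z = 𝟙 _ := by
    let B : (Ex.obj Z).Subcomplex := ⊥
    have := rlp_restrFace Z hZ B.ι (MorphismProperty.monomorphisms.infer_property _)
    have sq : CommSq (SSet.Subcomplex.isInitialBot.to (R ColCP Z)) B.ι (restrFace Z) (𝟙 _) :=
      ⟨SSet.Subcomplex.isInitialBot.hom_ext _ _⟩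
    exact ⟨sq.lift, sq.fac_right⟩
  let E : (Z ⊗ Δ[1]).Subcomplex :=
    { obj := fun Δ => {p | ∀ i i', SSet.stdSimplex.asOrderHom p.2 i =
        SSet.stdSimplex.asOrderHom p.2 i'}
      map := fun β p hp i i' => hp _ _ }
  let ab : (E : SSet.{0}) ⟶ R ColCP Z :=
    { app := fun Δ => ↾fun p => if SSet.stdSimplex.asOrderHom p.1.2 0 = 0 then
        (j.app Z ≫ s).app Δ p.1.1 else q.app Δ p.1.1
      naturality := fun Δ Δ' β => by
        refine ConcreteCategory.hom_ext _ _ fun p => ?_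
        show ite (SSet.stdSimplex.asOrderHom p.1.2 (β.unop.toOrderHom 0) = 0) _ _ =
          (R ColCP Z).map β (ite _ _ _)
        rw [p.2 (β.unop.toOrderHom 0) 0]
        split
        · exact ConcreteCategory.congr_hom ((j.app Z ≫ s).naturality β) p.1.1
        · exact ConcreteCategory.congr_hom (q.naturality β) p.1.1 }
  have := rlp_restrFace Z hZ E.ι (MorphismProperty.monomorphisms.infer_property _)
  have sq : CommSq ab E.ι (restrFace Z)
      (CartesianMonoidalCategory.fst Z Δ[1] ≫ j.app Z) := ⟨by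
    apply NatTrans.ext
    funext Δ
    refine ConcreteCategory.hom_ext _ _ fun p => ?_
    show (restrFace Z).app Δ (ite _ _ _) = (j.app Z).app Δ p.1.1
    split
    · exact ConcreteCategory.congr_hom (congr_app hs Δ) ((j.app Z).app Δ p.1.1)
    · exact ConcreteCategory.congr_hom (congr_app hq Δ) p.1.1⟩
  refine ⟨s ≫ e, htpc_mk (sq.lift ≫ e) ?_ ?_⟩
  · apply NatTrans.ext
    funext Δ
    refine ConcreteCategory.hom_ext _ _ fun z => ?_
    refine congrArg (e.app Δ) ((ConcreteCategory.congr_hom (congr_app sq.fac_left Δ)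
      ⟨SSet.ι₀.app Δ z, fun _ _ => rfl⟩).trans ?_)
    show ite (SSet.stdSimplex.asOrderHom (SSet.ι₀.app Δ z).2 0 = 0)
      ((j.app Z ≫ s).app Δ z) (q.app Δ z) = _
    exact if_pos rfl
  · rw [← he]
    apply NatTrans.ext
    funext Δ
    refine ConcreteCategory.hom_ext _ _ fun z => ?_
    refine congrArg (e.app Δ) ((ConcreteCategory.congr_hom (congr_app sq.fac_left Δ)
      ⟨SSet.ι₁.app Δ z, fun _ _ => rfl⟩).trans ?_)
    show ite (SSet.stdSimplex.asOrderHom (SSet.ι₁.app Δ z).2 0 = 0)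
      ((j.app Z ≫ s).app Δ z) (q.app Δ z) = _
    exact if_neg (by decide : ¬ (1 : Fin 2) = 0)

/-- `X ⟶ Ex X` is a weak equivalence. -/
theorem weakEq_j (X : SSet.{0}) : weakEq (j.app X) := by
  intro K hK
  obtain ⟨r, hr⟩ := exists_retraction K hK
  let Φ : Quot (Htpc (X := X) (K := K)) → Quot (Htpc (X := Ex.obj X) (K := K)) :=
    Quot.lift (fun g => Quot.mk _ (Ex.map g ≫ r))
      (fun g g' H => Quot.sound (quot_comp_left (Ex.htpc H) r))
  refine Function.bijective_iff_has_inverse.2 ⟨Φ, ?_, ?_⟩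
  · intro c
    induction c using Quot.ind with | mk h => ?_
    show Quot.mk _ (Ex.map (j.app X ≫ h) ≫ r) = Quot.mk _ h
    rw [Functor.map_comp, Category.assoc]
    refine (Quot.sound (quot_comp_left (htpc_j_exMap X) (Ex.map h ≫ r))).symm.trans ?_
    have hn : j.app (Ex.obj X) ≫ Ex.map h = h ≫ j.app K := (j.naturality h).symm
    rw [← Category.assoc, hn, Category.assoc]
    refine (Quot.sound (quot_comp_right h hr)).trans ?_
    rw [Category.comp_id]
  · intro c
    induction c using Quot.ind with | mk g => ?_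
    show Quot.mk _ (j.app X ≫ Ex.map g ≫ r) = Quot.mk _ g
    have hn : j.app X ≫ Ex.map g = g ≫ j.app K := (j.naturality g).symm
    rw [← Category.assoc, hn, Category.assoc]
    refine (Quot.sound (quot_comp_right g hr)).trans ?_
    rw [Category.comp_id]

end P213.KQ
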