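import Mathlib.AlgebraicTopology.SimplicialSet.Homotopy
import Mathlib.AlgebraicTopology.SimplicialSet.Monoidal
import Mathlib.AlgebraicTopology.SimplicialSet.Subdivision
import Mathlib.AlgebraicTopology.SimplicialSet.Nonsingular
import Mathlib.Data.Finset.Max

/-!
P213, classical input: nerves of finite posets and right adjoints of cosimplicial posets.

`R Q X` has as `n`-simplices the maps `N (Q n) ⟶ X`; Kan's `Ex` is `R ChCP`.
A natural family of monotone maps gives a map, a natural family indexed by `Δ¹` a homotopy.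
-/

universe u

open CategoryTheory Simplicial Opposite MonoidalCategory

namespace P213.KQ

/-- The nerve of a poset, with monotone maps as simplices. -/
def N (P : Type) [PartialOrder P] : SSet.{u} where
  obj Δ := ULift.{u} (Fin (Δ.unop.len + 1) →o P)
  map α := ↾fun σ => ⟨σ.down.comp α.unop.toOrderHom⟩
  map_id _ := rfl
  map_comp _ _ := rfl

namespace N

variable {P Q R : Type} [PartialOrder P] [PartialOrder Q] [PartialOrder R]

/-- A simplex of the nerve. -/
def mk {Δ : SimplexCategoryᵒᵖ} (σ : Fin (Δ.unop.len + 1) →o P) : (N.{u} P).obj Δ := ⟨σ⟩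

/-- The monotone map of a simplex. -/
def toHom {Δ : SimplexCategoryᵒᵖ} (σ : (N.{u} P).obj Δ) : Fin (Δ.unop.len + 1) →o P := σ.down

@[simp] lemma toHom_mk {Δ : SimplexCategoryᵒᵖ} (σ : Fin (Δ.unop.len + 1) →o P) :
    toHom (mk.{u} σ) = σ := rfl

lemma ext {Δ : SimplexCategoryᵒᵖ} {σ τ : (N.{u} P).obj Δ}
    (h : ∀ i, toHom σ i = toHom τ i) : σ = τ :=
  ULift.ext _ _ (OrderHom.ext _ _ (funext h))

/-- Functoriality of the nerve. -/
def map (f : P →o Q) : N.{u} P ⟶ N.{u} Q where
  app _ := ↾fun σ => mk (f.comp (toHom σ))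
  naturality _ _ _ := rfl

lemma map_comp (f : P →o Q) (g : Q →o R) : map.{u} f ≫ map g = map (g.comp f) := rfl

lemma map_id : map.{u} (OrderHom.id : P →o P) = 𝟙 _ := rfl

@[simp] lemma toHom_map {Δ : SimplexCategoryᵒᵖ} (f : P →o Q) (σ : (N.{u} P).obj Δ) :
    toHom ((map f).app Δ σ) = f.comp (toHom σ) := rfl

lemma pre_pre {X : SSet.{u}} (f : P →o Q) (g : Q →o R) (F : N.{u} R ⟶ X) :
    map f ≫ map g ≫ F = map (g.comp f) ≫ F := by
  rw [← Category.assoc, map_comp]

lemma pre_eq {X : SSet.{u}} {Q' : Type} [PartialOrder Q'] {f : P →o Q} {g : Q →o R}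
    {f' : P →o Q'} {g' : Q' →o R} (F : N.{u} R ⟶ X) (e : g.comp f = g'.comp f') :
    map f ≫ map g ≫ F = map f' ≫ map g' ≫ F := by
  rw [pre_pre, pre_pre, e]

lemma pre_id {X : SSet.{u}} {e : P →o P} (F : N.{u} P ⟶ X) (he : e = OrderHom.id) :
    map e ≫ F = F := by
  rw [he, map_id, Category.id_comp]

lemma hom_ext {X : SSet.{u}} {F G : N.{u} P ⟶ X}
    (h : ∀ (n : ℕ) (σ : Fin (n + 1) →o P),
      F.app (op ⦋n⦌) (mk σ) = G.app (op ⦋n⦌) (mk σ)) : F = G := by
  apply NatTrans.ext
  funext Δ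
  ext σ
  exact h Δ.unop.len (toHom σ)

end N

/-- A cosimplicial poset. -/
structure CP where
  /-- the poset in degree `n` -/
  obj : ℕ → Type
  [inst : ∀ n, PartialOrder (obj n)]
  /-- functoriality -/
  map : ∀ {m n : ℕ}, (Fin (m + 1) →o Fin (n + 1)) → (obj m →o obj n)
  map_id : ∀ (n : ℕ) (a : obj n), map OrderHom.id a = a
  map_comp : ∀ {l m n : ℕ} (f : Fin (l + 1) →o Fin (m + 1)) (g : Fin (m + 1) →o Fin (n + 1))
    (a : obj l), map (g.comp f) a = map g (map f a)

instance (Q : CP) (n : ℕ) : PartialOrder (Q.obj n) := Q.inst n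

lemma CP.map_id' (Q : CP) (n : ℕ) :
    Q.map (OrderHom.id : Fin (n + 1) →o Fin (n + 1)) = OrderHom.id :=
  OrderHom.ext _ _ (funext (Q.map_id n))

lemma CP.map_comp' (Q : CP) {l m n : ℕ} (f : Fin (l + 1) →o Fin (m + 1))
    (g : Fin (m + 1) →o Fin (n + 1)) : Q.map (g.comp f) = (Q.map g).comp (Q.map f) :=
  OrderHom.ext _ _ (funext (Q.map_comp f g))

variable {Q Q' Q'' : CP} {X Y : SSet.{u}}

/-- The right adjoint simplicial set of a cosimplicial poset. -/
def R (Q : CP) (X : SSet.{u}) : SSet.{u} where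
  obj Δ := N.{u} (Q.obj Δ.unop.len) ⟶ X
  map α := ↾fun F => N.map (Q.map α.unop.toOrderHom) ≫ F
  map_id _ := ConcreteCategory.hom_ext _ _ fun F => N.pre_id F (Q.map_id' _)
  map_comp {_ _ _} α β := ConcreteCategory.hom_ext _ _ fun F =>
    (congrArg (fun g => N.map g ≫ F) (Q.map_comp' β.unop.toOrderHom α.unop.toOrderHom)).trans
      (N.pre_pre _ _ F).symm

/-- Functoriality of `R` in the simplicial set. -/
def RFun (Q : CP) : SSet.{u} ⥤ SSet.{u} where
  obj := R Q
  map f :=
    { app := fun _ => ↾fun F => F ≫ f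
      naturality := fun _ _ _ => rfl }
  map_id X := by
    apply NatTrans.ext
    funext Δ
    exact ConcreteCategory.hom_ext _ _ fun F => Category.comp_id (show N.{u} _ ⟶ X from F)
  map_comp f g := by
    apply NatTrans.ext
    funext Δ
    exact ConcreteCategory.hom_ext _ _ fun F => (Category.assoc _ f g).symm

/-- A natural family of monotone maps. -/
structure CPHom (Q Q' : CP) where
  /-- the maps -/
  app : ∀ n, Q.obj n →o Q'.obj n
  nat : ∀ {m n : ℕ} (α : Fin (m + 1) →o Fin (n + 1)) (a : Q.obj m),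
    Q'.map α (app m a) = app n (Q.map α a)

/-- Composition. -/
def CPHom.comp (θ : CPHom Q Q') (θ' : CPHom Q' Q'') : CPHom Q Q'' where
  app n := (θ'.app n).comp (θ.app n)
  nat α a := by
    show Q''.map α (θ'.app _ (θ.app _ a)) = θ'.app _ (θ.app _ (Q.map α a))
    rw [θ'.nat, θ.nat]

/-- The identity. -/
def CPHom.id (Q : CP) : CPHom Q Q where
  app _ := OrderHom.id
  nat _ _ := rfl

/-- Restriction along a natural family of monotone maps. -/
def pull (θ : CPHom Q Q') : RFun.{u} Q' ⟶ RFun Q where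
  app X :=
    { app := fun Δ => ↾fun F => N.map (θ.app Δ.unop.len) ≫ F
      naturality := fun Δ Δ' α => ConcreteCategory.hom_ext _ _ fun F =>
        N.pre_eq (F : N.{u} _ ⟶ X) (OrderHom.ext _ _ (funext fun a => θ.nat _ a)) }
  naturality X Y f := by
    apply NatTrans.ext
    funext Δ
    exact ConcreteCategory.hom_ext _ _ fun F => Category.assoc _ _ f

lemma pull_comp (θ : CPHom Q Q') (θ' : CPHom Q' Q'') :
    pull.{u} θ' ≫ pull θ = pull (θ.comp θ') := by
  apply NatTrans.ext
  funext X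
  apply NatTrans.ext
  funext Δ
  exact ConcreteCategory.hom_ext _ _ fun F => N.pre_pre _ _ (F : N.{u} _ ⟶ X)

lemma pull_id (Q : CP) : pull.{u} (CPHom.id Q) = 𝟙 _ := by
  apply NatTrans.ext
  funext X
  apply NatTrans.ext
  funext Δ
  exact ConcreteCategory.hom_ext _ _ fun F => Category.id_comp (show N.{u} _ ⟶ X from F)

/-- A natural family of monotone maps indexed by the simplices of the interval. -/
structure CPHomotopy (θ₀ θ₁ : CPHom Q Q') where
  /-- the maps -/
  app : ∀ n, (Fin (n + 1) →o Fin 2) → (Q.obj n →o Q'.obj n)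
  nat : ∀ {m n : ℕ} (α : Fin (m + 1) →o Fin (n + 1)) (t : Fin (n + 1) →o Fin 2) (a : Q.obj m),
    Q'.map α (app m (t.comp α) a) = app n t (Q.map α a)
  zero : ∀ n a, app n (OrderHom.const _ 0) a = θ₀.app n a
  one : ∀ n a, app n (OrderHom.const _ 1) a = θ₁.app n a

/-- The simplicial homotopy of a `CPHomotopy`. -/
noncomputable def homotopy {θ₀ θ₁ : CPHom Q Q'} (T : CPHomotopy θ₀ θ₁) (X : SSet.{u}) :
    SSet.Homotopy ((pull θ₀).app X) ((pull θ₁).app X) where
  h :=
    { app := fun Δ => ↾fun z =>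
        N.map (T.app Δ.unop.len (SSet.stdSimplex.asOrderHom z.2)) ≫ z.1
      naturality := fun Δ Δ' α => ConcreteCategory.hom_ext _ _ fun z =>
        N.pre_eq (z.1 : N.{u} _ ⟶ X) (OrderHom.ext _ _ (funext fun a => T.nat _ _ a)) }
  h₀ := by
    apply NatTrans.ext
    funext Δ
    exact ConcreteCategory.hom_ext _ _ fun F =>
      congrArg (fun g => N.map g ≫ (F : N.{u} _ ⟶ X)) (OrderHom.ext _ _ (funext (T.zero _)))
  h₁ := by
    apply NatTrans.ext
    funext Δ
    exact ConcreteCategory.hom_ext _ _ fun F =>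
      congrArg (fun g => N.map g ≫ (F : N.{u} _ ⟶ X)) (OrderHom.ext _ _ (funext (T.one _)))
  rel := by
    apply NatTrans.ext
    funext Δ
    ext ⟨⟨x, hx⟩, _⟩
    exact absurd hx (by simp)

/-- Nonempty faces of the `n`-simplex, ordered by inclusion. -/
abbrev Ch (n : ℕ) : Type := { S : Finset (Fin (n + 1)) // S.Nonempty }

/-- Image of a face. -/
def Ch.map {m n : ℕ} (α : Fin (m + 1) →o Fin (n + 1)) : Ch m →o Ch n where
  toFun S := ⟨S.1.image α, S.2.image α⟩
  monotone' _ _ h := Finset.image_subset_image h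

/-- The cosimplicial poset of faces. -/
@[reducible] def ChCP : CP where
  obj := Ch
  map := Ch.map
  map_id n S := Subtype.ext (by simp [Ch.map])
  map_comp f g S := Subtype.ext (Finset.image_image (f := f) (g := g) (s := S.1)).symm

/-- The standard simplices. -/
@[reducible] def IdCP : CP where
  obj n := Fin (n + 1)
  map α := α
  map_id _ _ := rfl
  map_comp _ _ _ := rfl

/-- The maximal vertex of a face. -/
def Ch.top' {n : ℕ} (S : Ch n) : Fin (n + 1) := S.1.max' S.2

lemma Ch.top'_map {m n : ℕ} (α : Fin (m + 1) →o Fin (n + 1)) (S : Ch m) :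
    (Ch.map α S).top' = α S.top' := by
  apply le_antisymm
  · apply Finset.max'_le
    intro y hy
    obtain ⟨x, hx, rfl⟩ := Finset.mem_image.1 hy
    exact α.monotone (Finset.le_max' _ x hx)
  · exact Finset.le_max' _ _ (Finset.mem_image_of_mem _ (Finset.max'_mem _ _))

lemma Ch.top'_mono {n : ℕ} {S T : Ch n} (h : S ≤ T) : S.top' ≤ T.top' :=
  Finset.max'_subset S.2 h

/-- The last vertex map. -/
def lv : CPHom ChCP IdCP where
  app n := ⟨Ch.top', fun _ _ h => Ch.top'_mono h⟩
  nat α S := (Ch.top'_map α S).symm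

/-- Kan's `Ex`. -/
def Ex : SSet.{u} ⥤ SSet.{u} := RFun ChCP

/-- The simplicial operator of a monotone map. -/
def opHom {Δ Γ : SimplexCategoryᵒᵖ} (σ : Fin (Γ.unop.len + 1) →o Fin (Δ.unop.len + 1)) :
    Δ ⟶ Γ :=
  Quiver.Hom.op (SimplexCategory.Hom.mk σ)

/-- The simplicial set of maps out of the standard simplices. -/
def idR (X : SSet.{u}) : X ⟶ R IdCP X where
  app Δ := ↾fun x =>
    { app := fun Γ => ↾fun σ => X.map (opHom (N.toHom σ)) x
      naturality := fun Γ Γ' β => by
        ext σ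
        show X.map _ x = X.map β (X.map _ x)
        rw [← ConcreteCategory.comp_apply, ← X.map_comp]
        rfl }
  naturality Δ Δ' α := by
    ext x
    apply N.hom_ext
    intro n σ
    show X.map _ (X.map α x) = X.map _ x
    rw [← ConcreteCategory.comp_apply, ← X.map_comp]
    rfl

lemma idR_bijective (X : SSet.{u}) (Δ : SimplexCategoryᵒᵖ) :
    Function.Bijective ((idR X).app Δ) := by
  constructor
  · intro x y h
    have := congr_arg (fun F : N.{u} _ ⟶ X => F.app Δ (N.mk OrderHom.id)) h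
    change X.map (opHom OrderHom.id) x =
      X.map (opHom OrderHom.id) y at this
    have e : opHom (OrderHom.id : Fin (Δ.unop.len + 1) →o Fin (Δ.unop.len + 1)) = 𝟙 Δ := rfl
    simpa [e] using this
  · intro F
    refine ⟨F.app Δ (N.mk OrderHom.id), ?_⟩
    apply N.hom_ext
    intro n σ
    exact (ConcreteCategory.congr_hom (F.naturality
      (opHom (Δ := Δ) (Γ := op ⦋n⦌) σ)) (N.mk OrderHom.id)).symm

lemma isIso_idR (X : SSet.{u}) : IsIso (idR X) := by
  have : ∀ Δ, IsIso ((idR X).app Δ) := fun Δ =>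
    (isIso_iff_bijective _).2 (idR_bijective X Δ)
  exact NatIso.isIso_of_isIso_app _

/-- `idR` as a natural transformation. -/
def idRNat : 𝟭 SSet.{u} ⟶ RFun IdCP where
  app := idR
  naturality X Y f := by
    apply NatTrans.ext
    funext Δ
    ext x
    apply N.hom_ext
    intro n σ
    exact (ConcreteCategory.congr_hom (f.naturality (opHom (Δ := Δ) (Γ := op ⦋n⦌) σ)) x).symm

/-- The natural map `X ⟶ Ex X`. -/
def j : 𝟭 SSet.{u} ⟶ Ex := idRNat ≫ pull lv

/-- The initial interval. -/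
def Ch.below {n : ℕ} : Fin (n + 1) →o Ch n where
  toFun i := ⟨Finset.univ.filter (· ≤ i), ⟨i, by simp⟩⟩
  monotone' _ _ h _ hx := by
    simp only [Finset.mem_filter, Finset.mem_univ, true_and] at hx ⊢
    exact hx.trans h

lemma Ch.top'_below {n : ℕ} (i : Fin (n + 1)) : (Ch.below i).top' = i := by
  apply le_antisymm
  · exact Finset.max'_le _ _ _ fun y hy => (Finset.mem_filter.1 hy).2
  · exact Finset.le_max' _ _ (show i ∈ Finset.univ.filter (fun y => y ≤ i) by simp)

lemma j_app_injective (X : SSet.{u}) (Δ : SimplexCategoryᵒᵖ) :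
    Function.Injective ((j.app X).app Δ) := by
  intro x y h
  apply (idR_bijective X Δ).1
  have e : ((lv.app Δ.unop.len).comp (Ch.below (n := Δ.unop.len))) =
      (OrderHom.id : IdCP.obj Δ.unop.len →o IdCP.obj Δ.unop.len) :=
    OrderHom.ext _ _ (funext Ch.top'_below)
  have key : ∀ F : N.{u} (IdCP.obj Δ.unop.len) ⟶ X,
      N.map (Q := ChCP.obj Δ.unop.len) (Ch.below (n := Δ.unop.len)) ≫
        N.map (lv.app Δ.unop.len) ≫ F = F :=
    fun F => (N.pre_pre _ _ F).trans (N.pre_id F e)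
  exact (key _).symm.trans ((congr_arg (fun F : N.{u} (ChCP.obj Δ.unop.len) ⟶ X =>
    N.map (Q := ChCP.obj Δ.unop.len) (Ch.below (n := Δ.unop.len)) ≫ F) h).trans (key _))

instance mono_j (X : SSet.{u}) : Mono (j.app X) := by
  have : ∀ Δ, Mono ((j.app X).app Δ) := fun Δ =>
    (mono_iff_injective _).2 (j_app_injective X Δ)
  exact NatTrans.mono_of_mono_app _

end P213.KQ
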