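import Vale.Agent.P213.KQ.Ex.Nerve
import Mathlib.AlgebraicTopology.SimplicialSet.AnodyneExtensions.Basic
import Mathlib.Data.Fintype.Sort
import Mathlib.Order.Preorder.Chain

/-!
P213: anodyne extensions of nerves of posets from a toggling rule on chains.
-/

universe u

open CategoryTheory Simplicial Opposite

namespace P213.KQ

open Classical in
/-- The vertex set of a simplex. -/
noncomputable def img {P : Type} [PartialOrder P] {Δ : SimplexCategoryᵒᵖ}
    (σ : (N.{u} P).obj Δ) : Finset P :=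
  Finset.univ.image (N.toHom σ)

variable {P : Type} [PartialOrder P]

lemma mem_img {Δ : SimplexCategoryᵒᵖ} {σ : (N.{u} P).obj Δ} {p : P} :
    p ∈ img σ ↔ ∃ i, N.toHom σ i = p := by
  simp [img]

lemma img_map {Δ Δ' : SimplexCategoryᵒᵖ} (α : Δ ⟶ Δ') (σ : (N.{u} P).obj Δ) :
    img ((N.{u} P).map α σ) ⊆ img σ := by
  intro p hp
  obtain ⟨i, rfl⟩ := mem_img.1 hp
  exact mem_img.2 ⟨_, rfl⟩

lemma img_nonempty {Δ : SimplexCategoryᵒᵖ} (σ : (N.{u} P).obj Δ) : (img σ).Nonempty :=
  ⟨N.toHom σ 0, mem_img.2 ⟨0, rfl⟩⟩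

lemma isChain_img {Δ : SimplexCategoryᵒᵖ} (σ : (N.{u} P).obj Δ) :
    IsChain (· ≤ ·) (↑(img σ) : Set P) := by
  intro a ha b hb _
  obtain ⟨i, rfl⟩ := mem_img.1 ha
  obtain ⟨i', rfl⟩ := mem_img.1 hb
  exact (le_total i i').imp (fun h => (N.toHom σ).monotone h) (fun h => (N.toHom σ).monotone h)

/-- The subcomplex of the chains satisfying a predicate closed under subsets. -/
noncomputable def sub (A : Finset P → Prop) (hA : ∀ {s t}, A s → t ⊆ s → A t) :
    (N.{u} P).Subcomplex where
  obj _ := {σ | A (img σ)}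
  map α _ hσ := hA hσ (img_map α _)

lemma nonDegenerate_iff {n : ℕ} (σ : (N.{u} P) _⦋n⦌) :
    σ ∈ (N.{u} P).nonDegenerate n ↔ Function.Injective (N.toHom σ) := by
  constructor
  · intro h
    by_contra hinj
    apply h
    obtain _ | n := n
    · exact absurd (fun a b _ => Subsingleton.elim (α := Fin 1) a b) hinj
    have : ∃ i : Fin (n + 1), N.toHom σ i.castSucc = N.toHom σ i.succ := by
      by_contra hne
      push Not at hne
      apply hinj
      apply StrictMono.injective
      rw [Fin.strictMono_iff_lt_succ]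
      intro i
      exact lt_of_le_of_ne ((N.toHom σ).monotone i.castSucc_le_succ) (hne i)
    obtain ⟨i, hi⟩ := this
    rw [SSet.degenerate_eq_iUnion_range_σ, Set.mem_iUnion]
    refine ⟨i, (N.{u} P).δ i.castSucc σ, ?_⟩
    apply N.ext
    intro k
    show N.toHom σ (i.castSucc.succAbove (i.predAbove k)) = N.toHom σ k
    rcases eq_or_ne k i.castSucc with rfl | hk
    · simpa using hi.symm
    · rw [Fin.succAbove_predAbove hk]
  · rintro hinj ⟨m, hm, f, y, rfl⟩
    obtain ⟨a, b, hab, hne⟩ : ∃ a b, f.toOrderHom a = f.toOrderHom b ∧ a ≠ b := by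
      by_contra hf
      push Not at hf
      have := Fintype.card_le_of_injective f.toOrderHom (fun a b h => hf a b h)
      simp at this
      omega
    exact hne (hinj (show N.toHom y (f.toOrderHom a) = N.toHom y (f.toOrderHom b) by rw [hab]))

lemma strictMono_of_nonDegenerate {n : ℕ} {σ : (N.{u} P) _⦋n⦌}
    (h : σ ∈ (N.{u} P).nonDegenerate n) : StrictMono (N.toHom σ) :=
  (N.toHom σ).monotone.strictMono_of_injective ((nonDegenerate_iff σ).1 h)

lemma eq_of_img_eq {n : ℕ} {σ τ : (N.{u} P) _⦋n⦌}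
    (hσ : Function.Injective (N.toHom σ)) (hτ : Function.Injective (N.toHom τ))
    (h : img σ = img τ) : σ = τ := by
  apply N.ext
  have := (StrictMono.range_inj ((N.toHom σ).monotone.strictMono_of_injective hσ)
    ((N.toHom τ).monotone.strictMono_of_injective hτ)).1 (by
      ext p
      simpa [mem_img] using (Finset.ext_iff.1 h p))
  exact fun i => congrFun this i

lemma card_img {n : ℕ} {σ : (N.{u} P) _⦋n⦌} (hσ : Function.Injective (N.toHom σ)) :
    (img σ).card = n + 1 := by
  classical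
  unfold img
  rw [Finset.card_image_of_injective _ hσ]
  simp

open Classical in
/-- A chain with a given number of elements is the image of an injective simplex. -/
lemma exists_simplex {c : Finset P} (hc : IsChain (· ≤ ·) (↑c : Set P)) {n : ℕ}
    (hn : c.card = n + 1) :
    ∃ σ : (N.{u} P) _⦋n⦌, Function.Injective (N.toHom σ) ∧ img σ = c := by
  let _lo : LinearOrder {x // x ∈ c} :=
    { (inferInstance : PartialOrder {x // x ∈ c}) with
      le_total := fun a b => by
        rcases eq_or_ne a b with rfl | hne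
        · exact Or.inl le_rfl
        · exact hc a.2 b.2 (fun h => hne (Subtype.ext h))
      toDecidableLE := fun _ _ => Classical.propDecidable _ }
  let e := monoEquivOfFin {x // x ∈ c} (k := n + 1) (by simpa using hn)
  refine ⟨N.mk ⟨fun i => (e i).1, fun a b h => e.monotone h⟩, ?_, ?_⟩
  · intro a b h
    exact e.injective (Subtype.ext h)
  · ext p
    rw [mem_img]
    constructor
    · rintro ⟨i, rfl⟩
      exact (e i).2
    · intro hp
      exact ⟨e.symm ⟨p, hp⟩, congrArg Subtype.val (e.apply_symm_apply ⟨p, hp⟩)⟩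

lemma img_δ {n : ℕ} {σ : (N.{u} P) _⦋n + 1⦌} (hσ : Function.Injective (N.toHom σ))
    (i : Fin (n + 2)) [DecidableEq P] :
    img ((N.{u} P).δ i σ) = (img σ).erase (N.toHom σ i) := by
  ext p
  rw [Finset.mem_erase, mem_img, mem_img]
  constructor
  · rintro ⟨k, rfl⟩
    exact ⟨fun h => Fin.succAbove_ne i k (hσ h), i.succAbove k, rfl⟩
  · rintro ⟨hne, k, rfl⟩
    obtain ⟨k', rfl⟩ := Fin.exists_succAbove_eq (x := k) (y := i) (fun h => hne (by rw [h]))
    exact ⟨k', rfl⟩

lemma mk_eq_of_img {n m : ℕ} {σ : (N.{u} P) _⦋n⦌} {τ : (N.{u} P) _⦋m⦌}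
    (hσ : Function.Injective (N.toHom σ)) (hτ : Function.Injective (N.toHom τ))
    (h : img σ = img τ) : SSet.S.mk σ = SSet.S.mk τ := by
  have := congrArg Finset.card h
  rw [card_img hσ, card_img hτ] at this
  obtain rfl : n = m := by omega
  rw [eq_of_img_eq hσ hτ h]

lemma δ_injective {n : ℕ} {σ : (N.{u} P) _⦋n + 1⦌} (hσ : Function.Injective (N.toHom σ))
    (i : Fin (n + 2)) : Function.Injective (N.toHom ((N.{u} P).δ i σ)) :=
  fun a b h => Fin.succAbove_right_injective (hσ (a₁ := i.succAbove a) (a₂ := i.succAbove b) h)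

/-- A toggling rule on the chains outside a subcomplex. -/
structure Toggle [DecidableEq P] (A : Finset P → Prop) where
  /-- the toggled element -/
  z : Finset P → P
  chain : ∀ s : Finset P, IsChain (· ≤ ·) (↑s : Set P) → ¬ A s → z s ∉ s →
    IsChain (· ≤ ·) (↑(insert (z s) s) : Set P)
  add : ∀ s : Finset P, IsChain (· ≤ ·) (↑s : Set P) → ¬ A s → z s ∉ s → z (insert (z s) s) = z s
  del : ∀ s : Finset P, IsChain (· ≤ ·) (↑s : Set P) → ¬ A s → z s ∈ s →
    (s.erase (z s)).Nonempty ∧ ¬ A (s.erase (z s)) ∧ z (s.erase (z s)) = z s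
  /-- the rank of an unmarked chain -/
  rank : Finset P → ℕ
  rank_lt : ∀ s t : Finset P, IsChain (· ≤ ·) (↑s : Set P) → ¬ A s → z s ∉ s →
    IsChain (· ≤ ·) (↑t : Set P) → ¬ A t → z t ∉ t →
    t ⊆ insert (z s) s → t.card = s.card → t ≠ s → rank t < rank s

namespace Toggle

variable [DecidableEq P] {A : Finset P → Prop} (T : Toggle A)

/-- The unmarked chains. -/
abbrev Idx : Type :=
  { s : Finset P // IsChain (· ≤ ·) (↑s : Set P) ∧ s.Nonempty ∧ ¬ A s ∧ T.z s ∉ s }

lemma exists_big (s : T.Idx) : ∃ σ : (N.{u} P) _⦋s.1.card - 1 + 1⦌,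
    Function.Injective (N.toHom σ) ∧ img σ = insert (T.z s.1) s.1 := by
  apply exists_simplex (T.chain _ s.2.1 s.2.2.2.1 s.2.2.2.2)
  rw [Finset.card_insert_of_notMem s.2.2.2.2]
  have := s.2.2.1.card_pos
  omega

/-- The marked simplex. -/
noncomputable def big (s : T.Idx) : (N.{u} P) _⦋s.1.card - 1 + 1⦌ := (T.exists_big s).choose

lemma big_inj (s : T.Idx) : Function.Injective (N.toHom (T.big.{u} s)) :=
  (T.exists_big s).choose_spec.1

lemma img_big (s : T.Idx) : img (T.big.{u} s) = insert (T.z s.1) s.1 :=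
  (T.exists_big s).choose_spec.2

lemma exists_pos (s : T.Idx) : ∃ i, N.toHom (T.big.{u} s) i = T.z s.1 :=
  mem_img.1 (by rw [T.img_big]; exact Finset.mem_insert_self _ _)

/-- The position of the marked vertex. -/
noncomputable def pos (s : T.Idx) : Fin (s.1.card - 1 + 2) := (T.exists_pos.{u} s).choose

lemma img_small (s : T.Idx) : img ((N.{u} P).δ (T.pos.{u} s) (T.big.{u} s)) = s.1 := by
  rw [img_δ (T.big_inj s), T.img_big]
  have h : N.toHom (T.big.{u} s) (T.pos.{u} s) = T.z s.1 := (T.exists_pos.{u} s).choose_spec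
  rw [show N.toHom (T.big.{u} s) (T.pos.{u} s) = T.z s.1 from h,
    Finset.erase_insert s.2.2.2.2]

lemma face_unique (s : T.Idx) (i i' : Fin (s.1.card - 1 + 2))
    (h : (N.{u} P).δ i (T.big.{u} s) = (N.{u} P).δ i' (T.big.{u} s)) : i = i' := by
  have h' := congrArg img h
  rw [img_δ (T.big_inj s), img_δ (T.big_inj s)] at h'
  by_contra hne
  have hmem : N.toHom (T.big.{u} s) i ∈ (img (T.big.{u} s)).erase (N.toHom (T.big.{u} s) i') :=
    Finset.mem_erase.2 ⟨fun e => hne (T.big_inj s e), mem_img.2 ⟨i, rfl⟩⟩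
  rw [← h'] at hmem
  exact Finset.notMem_erase _ _ hmem

lemma subset_of_map (s t : T.Idx) (f : ⦋s.1.card - 1⦌ ⟶ ⦋t.1.card - 1 + 1⦌)
    (h : (N.{u} P).map f.op (T.big.{u} t) = (N.{u} P).δ (T.pos.{u} s) (T.big.{u} s)) :
    s.1 ⊆ insert (T.z t.1) t.1 := by
  rw [← T.img_small.{u} s, ← h, ← T.img_big.{u} t]
  exact img_map _ _

omit [DecidableEq P] in
variable {T} in
lemma img_eq_of_mk_eq {n m : ℕ} {σ : (N.{u} P) _⦋n⦌} {τ : (N.{u} P) _⦋m⦌}
    (h : SSet.S.mk σ = SSet.S.mk τ) : img σ = img τ :=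
  congrArg (fun x : (N.{u} P).S => img x.simplex) h

variable (hA : ∀ {s t}, A s → t ⊆ s → A t)

include T hA in
lemma big_notMem (s : T.Idx) : ¬ A (img (T.big.{u} s)) := by
  rw [T.img_big]
  exact fun h => s.2.2.2.1 (hA h (Finset.subset_insert _ _))

include T hA in
/-- The pairing of a toggling rule. -/
noncomputable def pairingCore : (sub.{u} A hA).PairingCore where
  ι := T.Idx
  dim s := s.1.card - 1
  simplex := T.big
  index := T.pos.{u}
  nonDegenerate₁ s := (nonDegenerate_iff _).2 (T.big_inj s)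
  nonDegenerate₂ s := (nonDegenerate_iff _).2 (δ_injective (T.big_inj s) _)
  notMem₁ s := T.big_notMem hA s
  notMem₂ s h := s.2.2.2.1 (by
    have : A (img ((N.{u} P).δ (T.pos.{u} s) (T.big.{u} s))) := h
    rwa [T.img_small] at this)
  injective_type₁' {s t} h := by
    have h' := img_eq_of_mk_eq h
    rw [T.img_big, T.img_big] at h'
    have hz : T.z s.1 = T.z t.1 := by
      rw [← T.add _ s.2.1 s.2.2.2.1 s.2.2.2.2, ← T.add _ t.2.1 t.2.2.2.1 t.2.2.2.2, h']
    apply Subtype.ext
    have := congrArg (fun c => c.erase (T.z s.1)) h'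
    beta_reduce at this
    rw [Finset.erase_insert s.2.2.2.2, hz, Finset.erase_insert t.2.2.2.2] at this
    exact this
  injective_type₂' {s t} h := by
    have h' := img_eq_of_mk_eq h
    rw [T.img_small, T.img_small] at h'
    exact Subtype.ext h'
  type₁_ne_type₂' s t h := by
    have h' := img_eq_of_mk_eq h
    rw [T.img_big, T.img_small] at h'
    apply t.2.2.2.2
    rw [← h', T.add _ s.2.1 s.2.2.2.1 s.2.2.2.2]
    exact Finset.mem_insert_self _ _
  surjective' x := by
    obtain ⟨n, σ, hnd, hσA, rfl⟩ := SSet.Subcomplex.N.mk_surjective x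
    have hinj := (nonDegenerate_iff σ).1 hnd
    have hcard := card_img hinj
    by_cases hz : T.z (img σ) ∈ img σ
    · obtain ⟨hne, hA', hz'⟩ := T.del _ (isChain_img σ) hσA hz
      let s : T.Idx := ⟨(img σ).erase (T.z (img σ)),
        (isChain_img σ).mono (Finset.coe_subset.2 (Finset.erase_subset _ _)), hne, hA',
        by rw [hz']; exact Finset.notMem_erase _ _⟩
      have him : img (T.big.{u} s) = img σ := by
        rw [T.img_big]
        show insert (T.z ((img σ).erase _)) _ = _
        rw [hz']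
        exact Finset.insert_erase hz
      exact ⟨s, Or.inl (mk_eq_of_img hinj (T.big_inj s) him.symm)⟩
    · let s : T.Idx := ⟨img σ, isChain_img σ, img_nonempty σ, hσA, hz⟩
      have him : img ((N.{u} P).δ (T.pos.{u} s) (T.big.{u} s)) = img σ := T.img_small s
      exact ⟨s, Or.inr (mk_eq_of_img hinj (δ_injective (T.big_inj s) _) him.symm)⟩

include T hA in
/-- The inclusion of the subcomplex is anodyne. -/
theorem anodyne : SSet.anodyneExtensions (sub.{u} A hA).ι := by
  let C := T.pairingCore hA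
  have : C.IsProper := ⟨fun s => (SSet.S.IsUniquelyCodimOneFace.iff _ _).2
    (existsUnique_of_exists_of_unique ⟨_, rfl⟩ fun i i' hi hi' =>
      T.face_unique.{u} s i i' (hi.trans hi'.symm))⟩
  have : C.IsRegular := (SSet.Subcomplex.PairingCore.WeakRankFunction.isRegular
    (h := C) (α := ℕ) ⟨fun s => T.rank s.1, fun {s t} hst hdim => by
      obtain ⟨hne, hlt⟩ := hst
      rw [SSet.Subcomplex.N.lt_iff] at hlt
      obtain ⟨f, -, hf⟩ := SSet.N.le_iff_exists_mono.1 hlt.le
      have hsub := T.subset_of_map.{u} s t f hf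
      refine T.rank_lt _ _ t.2.1 t.2.2.2.1 t.2.2.2.2 s.2.1 s.2.2.2.1 s.2.2.2.2 hsub ?_
        (fun e => hne (Subtype.ext e))
      have h1 := s.2.2.1.card_pos
      have h2 := t.2.2.1.card_pos
      change s.1.card - 1 = t.1.card - 1 at hdim
      omega⟩)
  exact C.pairing.anodyneExtensions

end Toggle

end P213.KQ
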